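import Vale.Agent.P148.R2.H504.Fin
import Vale.Agent.P148.R2.H172.N3b

/-!
# Row N5, level 1, for the quenched law of the collar (`H172.GateLaw`)

`g : GateLaw V`, composite colouring `g.w c₁ c₂`, pieces `v k = F k (g.w c₁ c₂)`, `F k` a function
of the colours in `Z k`.

* `qm g F` : quenched mean of `F (g.w c₁ c₂)` (complex), `qm_re`, `qm_im`
* `gdom` : explicit dominating function, `ring_gl` : its mean is at most `err`
* `two_level_gl` : combination with the annealed level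
-/

namespace Vale.Agent.P148.R2.H504

open Finset N
open H953 (ex pr On)
open H172 (GateLaw ex2)
open scoped Classical

variable {V : Type*} [Fintype V] (g : GateLaw V)

set_option linter.unusedSectionVars false

/-- The probability weights of the law. -/
noncomputable def gw (p : (V → Bool) × (V → Bool)) : ℝ :=
  g.L p.1 p.2 / (2 ^ Fintype.card V * 2 ^ Fintype.card V)

theorem gw_nonneg (p : (V → Bool) × (V → Bool)) : 0 ≤ gw g p :=
  div_nonneg (g.L_nonneg _ _) (by positivity)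

theorem ex2_eq_sum (f : (V → Bool) → (V → Bool) → ℝ) :
    ex2 f = (∑ p : (V → Bool) × (V → Bool), f p.1 p.2) /
      (2 ^ Fintype.card V * 2 ^ Fintype.card V) := by
  unfold ex2 ex
  dsimp only
  rw [Fintype.sum_prod_type, ← Finset.sum_div, div_div]

theorem sum_gw (f : (V → Bool) → (V → Bool) → ℝ) :
    ∑ p, gw g p * f p.1 p.2 = g.qe f := by
  rw [g.qe_eq_L, ex2_eq_sum, Finset.sum_div]
  apply Finset.sum_congr rfl
  intro p _
  unfold gw
  ring

/-- Quenched mean of a complex function of the composite colouring. -/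
noncomputable def qm (F : (V → Bool) → ℂ) : ℂ := fmean (gw g) fun p => F (g.w p.1 p.2)

theorem qm_re (F : (V → Bool) → ℂ) : (qm g F).re = g.qe fun c₁ c₂ => (F (g.w c₁ c₂)).re := by
  rw [← sum_gw]
  unfold qm fmean
  rw [Complex.re_sum]
  apply Finset.sum_congr rfl
  intro p _
  rw [Complex.re_ofReal_mul]

theorem qm_im (F : (V → Bool) → ℂ) : (qm g F).im = g.qe fun c₁ c₂ => (F (g.w c₁ c₂)).im := by
  rw [← sum_gw]
  unfold qm fmean
  rw [Complex.im_sum]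
  apply Finset.sum_congr rfl
  intro p _
  rw [Complex.im_ofReal_mul]

/-- The quenched mean is bounded by the second moment. -/
theorem norm_qm_sq_le {c : ℝ} (hc : 0 < c) (hH : ∀ k < g.n, c ≤ pr (g.He k))
    (hC : ∀ k < g.n, c ≤ pr (g.Ce k)) (F : (V → Bool) → ℂ) :
    ‖qm g F‖ ^ 2 ≤ g.qe fun c₁ c₂ => ‖F (g.w c₁ c₂)‖ ^ 2 := by
  have h1 : ∑ p, gw g p = 1 := by
    have := sum_gw g fun _ _ => 1
    simp only [mul_one] at this
    rw [this]
    exact g.qe_const hc hH hC 1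
  rw [← sum_gw]
  have h2 : ‖qm g F‖ ≤ ∑ p, gw g p * ‖F (g.w p.1 p.2)‖ := by
    unfold qm fmean
    refine (_root_.norm_sum_le _ _).trans (le_of_eq ?_)
    apply Finset.sum_congr rfl
    intro p _
    rw [norm_mul, Complex.norm_real, Real.norm_of_nonneg (gw_nonneg g p)]
  have h3 : (∑ p, gw g p * ‖F (g.w p.1 p.2)‖) ^ 2 ≤
      (∑ p, gw g p) * ∑ p, gw g p * ‖F (g.w p.1 p.2)‖ ^ 2 := by
    apply Finset.sum_sq_le_sum_mul_sum_of_sq_le_mul
    · intro p _; exact gw_nonneg g p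
    · intro p _; exact mul_nonneg (gw_nonneg g p) (sq_nonneg _)
    · intro p _; exact le_of_eq (by ring)
  rw [h1, one_mul] at h3
  exact (pow_le_pow_left₀ (norm_nonneg _) h2 2).trans h3

/-- The explicit dominating function. -/
noncomputable def gdom (n L : ℕ) (F : ℕ → (V → Bool) → ℂ) (c₁ c₂ : V → Bool) : ℝ :=
  fdom (gw g) n L (fun k p => F k (g.w p.1 p.2)) (c₁, c₂)

theorem gdom_nonneg (n L : ℕ) (F : ℕ → (V → Bool) → ℂ) (c₁ c₂ : V → Bool) :
    0 ≤ gdom g n L F c₁ c₂ := fdom_nonneg _ _ _ _ _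

/-- The number of dyadic levels. -/
def lev (M : ℕ) : ℕ := Nat.log 2 (12 * M) + 1

/-- **Row N5, level 1.** -/
theorem ring_gl {M : ℕ} (hM : 0 < M) {c : ℝ} (hc : 0 < c) (hH : ∀ k < g.n, c ≤ pr (g.He k))
    (hC : ∀ k < g.n, c ≤ pr (g.Ce k)) {K : ℝ} (hK0 : 0 ≤ K) (r : ℕ)
    (F : ℕ → (V → Bool) → ℂ) (Z : ℕ → Set V) (t : ℕ → Finset ℕ)
    (hF : ∀ k < nc M, On (Z k) (F k)) (ht : ∀ k < nc M, g.Touch (Z k) (t k))
    (hZZ : ∀ i < nc M, ∀ j < nc M, j ∉ near (nc M) r i → Disjoint (Z i) (Z j))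
    (htt : ∀ i < nc M, ∀ j < nc M, j ∉ near (nc M) r i → Disjoint (t i) (t j))
    (hK : ∀ k < nc M, (g.qe fun c₁ c₂ => ‖F k (g.w c₁ c₂)‖ ^ 2) ≤ K * ms M ^ 2) :
    g.qe (gdom g (nc M) (lev M) F) ≤ err (K * (216 * (r + 1))) M := by
  have h1 : ∑ p, gw g p = 1 := by
    have := sum_gw g fun _ _ => 1
    simp only [mul_one] at this
    rw [this]
    exact g.qe_const hc hH hC 1
  rw [← sum_gw]
  refine ring_fin hM (gw_nonneg g) h1 (v := fun k p => F k (g.w p.1 p.2)) hK0 r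
    (fun k hk => ?_) (fun i hi j hj hij φ ψ => ?_)
  · rw [sum_gw g fun c₁ c₂ => ‖F k (g.w c₁ c₂)‖ ^ 2]
    exact hK k hk
  · rw [sum_gw g fun c₁ c₂ => φ (F i (g.w c₁ c₂)) * ψ (F j (g.w c₁ c₂)),
      sum_gw g fun c₁ c₂ => φ (F i (g.w c₁ c₂)), sum_gw g fun c₁ c₂ => ψ (F j (g.w c₁ c₂))]
    exact g.qe_indep hc hH hC (ht i hi) (ht j hj) (htt i hi j hj hij) (hZZ i hi j hj hij)
      (F := fun σ => φ (F i σ)) (G := fun σ => ψ (F j σ))
      (fun σ ρ h => congrArg φ (hF i hi σ ρ h)) (fun σ ρ h => congrArg ψ (hF j hj σ ρ h))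

/-- **Combination of the two levels**, surely. -/
theorem two_level_gl {M : ℕ} (hM : 0 < M) (F : ℕ → (V → Bool) → ℂ) {c : ℂ} {G₂ : ℝ}
    (hG₂ : ∀ i ≤ nc M, ∀ j ≤ nc M,
      ‖arcSum (nc M) (fun k => qm g (F k)) i j - c * (gateC M j - gateC M i)‖ ^ 2 ≤ G₂)
    (c₁ c₂ : V → Bool) {i j : ℕ} (hi : i ≤ nc M) (hj : j ≤ nc M) :
    ‖arcSum (nc M) (fun k => F k (g.w c₁ c₂)) i j - c * (gateC M j - gateC M i)‖ ^ 2 ≤
      2 * gdom g (nc M) (lev M) F c₁ c₂ + 2 * G₂ :=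
  two_level (w := gw g) (nc_lt_pow hM) (fun k p => F k (g.w p.1 p.2)) hG₂ (c₁, c₂) hi hj

end Vale.Agent.P148.R2.H504
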