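import Vale.Agent.P148.R2.H504.Tk

/-!
# The gates of a straight cell

`tk_straight` : for a cell `k` at index distance at least `10` from the ends of its side,
`tk M k = {k - 5, …, k + 5}`. `tk_add` : equivariance (reference cell `10`).
-/

namespace Vale.Agent.P148.R2.H504

open Finset N Complex
open H995 (nsup)

variable {M : ℕ}

/-- The distance of two cells of the same side. -/
theorem nsup_cell_same {a b : ℕ} (h : a / (2 * M + 1) = b / (2 * M + 1)) :
    nsup (cellC M a - cellC M b) =
      |((a % (2 * M + 1) : ℕ) : ℝ) - ((b % (2 * M + 1) : ℕ) : ℝ)| * |ms M| := by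
  rw [cellC_eq, cellC_eq, h, ← mul_sub, nsup_I_pow_mul]
  unfold nsup
  have e1 : (zc M (a % (2 * M + 1)) - zc M (b % (2 * M + 1))).re = 0 := by
    simp [zc]
  have e2 : (zc M (a % (2 * M + 1)) - zc M (b % (2 * M + 1))).im =
      (((a % (2 * M + 1) : ℕ) : ℝ) - ((b % (2 * M + 1) : ℕ) : ℝ)) * ms M := by
    simp [zc]
    ring
  rw [e1, e2, abs_zero, abs_mul]
  exact max_eq_right (by positivity)

/-- **The gates near a straight cell.** -/
theorem tk_straight (hM : 0 < M) {k : ℕ} (hk : k < nc M) (h1 : 10 ≤ k % (2 * M + 1))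
    (h2 : k % (2 * M + 1) + 10 ≤ 2 * M) : tk M k = Icc (k - 5) (k + 5) := by
  have h0 := ms_pos hM
  have hkd := Nat.div_add_mod k (2 * M + 1)
  have hk4 := div_lt_four hk
  have hn : nc M = 4 * (2 * M + 1) := by unfold nc; ring
  obtain ⟨s, hs⟩ : ∃ s, s = k / (2 * M + 1) := ⟨_, rfl⟩
  obtain ⟨p, hp⟩ : ∃ p, p = k % (2 * M + 1) := ⟨_, rfl⟩
  rw [← hs, ← hp] at hkd
  rw [← hs] at hk4
  rw [← hp] at h1 h2
  -- nearby cells are on the same side
  have same : ∀ l, k ≤ l + 10 → l ≤ k + 10 → l / (2 * M + 1) = s ∧ l % (2 * M + 1) + k = p + l ∧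
      l < nc M := by
    intro l a1 a2
    have e : l = (2 * M + 1) * s + (l + p - k) := by omega
    have e1 : l + p - k < 2 * M + 1 := by omega
    refine ⟨?_, ?_, ?_⟩
    · rw [e, Nat.mul_add_div (by omega), Nat.div_eq_of_lt e1, add_zero]
    · have : l % (2 * M + 1) = l + p - k := by
        conv_lhs => rw [e, Nat.mul_add_mod, Nat.mod_eq_of_lt e1]
      omega
    · have : (2 * M + 1) * s ≤ (2 * M + 1) * 3 := Nat.mul_le_mul_left _ (by omega)
      omega
  have dist : ∀ l, k ≤ l + 10 → l ≤ k + 10 → nsup (cellC M l - cellC M k) =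
      |(l : ℝ) - (k : ℝ)| * ms M := by
    intro l a1 a2
    obtain ⟨b1, b2, -⟩ := same l a1 a2
    rw [nsup_cell_same (by rw [b1, hs]), ← hp, abs_of_pos h0]
    congr 2
    have : ((l % (2 * M + 1) : ℕ) : ℝ) + k = p + l := by exact_mod_cast b2
    linarith
  ext l
  rw [mem_Icc]
  constructor
  · intro hl
    have hl2 := tk_sub_near hM hk hl
    unfold tk at hl
    rw [mem_filter, mem_range] at hl
    obtain ⟨hl0, hl1⟩ := hl
    unfold near at hl2
    rw [mem_filter, mem_range] at hl2
    obtain ⟨-, t, ht, h3⟩ := hl2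
    have hk10 : k + 10 < nc M := (same (k + 10) (by omega) le_rfl).2.2
    have hrange : k ≤ l + 10 ∧ l ≤ k + 10 := by
      rcases h3 with h3 | h3
      · rw [Nat.mod_eq_of_lt (by omega)] at h3
        omega
      · by_cases h4 : l + t < nc M
        · rw [Nat.mod_eq_of_lt h4] at h3
          omega
        · have h5 : (l + t) % nc M = l + t - nc M := by
            rw [Nat.mod_eq_sub_mod (by omega), Nat.mod_eq_of_lt (by omega)]
          have h6 : p ≤ k := by omega
          omega
    rw [dist l hrange.1 hrange.2] at hl1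
    have h7 : |(l : ℝ) - (k : ℝ)| < 21 / 4 := by
      by_contra hcon
      push Not at hcon
      nlinarith
    rw [abs_lt] at h7
    have h8 : (k : ℝ) < l + 6 := by linarith [h7.1]
    have h9 : (l : ℝ) < k + 6 := by linarith [h7.2]
    have h10 : k < l + 6 := by exact_mod_cast h8
    have h11 : l < k + 6 := by exact_mod_cast h9
    omega
  · rintro ⟨a1, a2⟩
    have hkp : p ≤ k := by omega
    unfold tk
    rw [mem_filter, mem_range]
    refine ⟨(same l (by omega) (by omega)).2.2, ?_⟩
    rw [dist l (by omega) (by omega)]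
    have h7 : |(l : ℝ) - (k : ℝ)| ≤ 5 := by
      rw [abs_le]
      constructor
      · have : (k : ℝ) ≤ l + 5 := by exact_mod_cast (by omega : k ≤ l + 5)
        linarith
      · have : (l : ℝ) ≤ k + 5 := by exact_mod_cast a2
        linarith
    nlinarith

/-- **Equivariance of the set of gates**, reference cell `10`. -/
theorem tk_add (hM : 0 < M) {l : ℕ} (h : l % (2 * M + 1) + 21 ≤ 2 * M) (hl : l + 10 < nc M) :
    tk M (l + 10) = (tk M 10).image (fun j => l + j) := by
  have hn : nc M = 4 * (2 * M + 1) := by unfold nc; ring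
  have e1 : (l + 10) % (2 * M + 1) = l % (2 * M + 1) + 10 := by
    rw [Nat.add_mod, Nat.mod_eq_of_lt (show 10 < 2 * M + 1 by omega),
      Nat.mod_eq_of_lt (by omega)]
  have e2 : 10 % (2 * M + 1) = 10 := Nat.mod_eq_of_lt (by omega)
  rw [tk_straight hM hl (by rw [e1]; omega) (by rw [e1]; omega),
    tk_straight hM (k := 10) (by omega) (by rw [e2]) (by rw [e2]; omega)]
  ext j
  rw [mem_Icc, mem_image]
  constructor
  · rintro ⟨a1, a2⟩
    exact ⟨j - l, by rw [mem_Icc]; omega, by omega⟩
  · rintro ⟨i, hi, rfl⟩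
    rw [mem_Icc] at hi
    omega

end Vale.Agent.P148.R2.H504
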