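import Vale.Agent.P148.R2.H504.Ring

/-!
# Row N5, level 1 (quenched)

Finite probability space `(α, w)`. Complex variables `v k`, `k < n`, second moments at most `K`,
independent off a graph of degree `d`. `fdom` is an explicit function of the configuration which
bounds the squares of all centred partial sums, and `∑ w * fdom ≤ 9 L ^ 2 * (d * n * K)`.

`ring_fin` : the ring; `two_level` : combination with the annealed level.
-/

namespace Vale.Agent.P148.R2.H504

open MeasureTheory ProbabilityTheory Finset Filter Topology N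
open scoped ComplexConjugate ENNReal

section wm

variable {α : Type*} [Fintype α]

/-- The measure with weights `w` on a finite space. -/
noncomputable def wm [MeasurableSpace α] (w : α → ℝ) : Measure α :=
  ∑ a, ENNReal.ofReal (w a) • Measure.dirac a

variable [MeasurableSpace α] [MeasurableSingletonClass α]

instance (w : α → ℝ) : IsFiniteMeasure (wm w) := by
  unfold wm
  constructor
  rw [Measure.finsetSum_apply]
  simp

theorem integrable_wm {E : Type*} [NormedAddCommGroup E] (w : α → ℝ) (f : α → E) :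
    Integrable f (wm w) := Integrable.of_finite

theorem integral_wm {E : Type*} [NormedAddCommGroup E] [NormedSpace ℝ E] [CompleteSpace E]
    {w : α → ℝ} (hw : ∀ a, 0 ≤ w a) (f : α → E) : ∫ a, f a ∂wm w = ∑ a, w a • f a := by
  unfold wm
  rw [integral_finsetSum_measure]
  · apply Finset.sum_congr rfl
    intro a _
    rw [integral_smul_measure, integral_dirac, ENNReal.toReal_ofReal (hw a)]
  · intro a _
    exact Integrable.smul_measure (integrable_dirac' (by fun_prop) (by simp))
      ENNReal.ofReal_ne_top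

theorem isProbabilityMeasure_wm {w : α → ℝ} (hw : ∀ a, 0 ≤ w a) (h1 : ∑ a, w a = 1) :
    IsProbabilityMeasure (wm w) := by
  constructor
  unfold wm
  rw [Measure.finsetSum_apply]
  simp only [Measure.smul_apply, measure_univ, smul_eq_mul, mul_one]
  rw [← ENNReal.ofReal_sum_of_nonneg fun a _ => hw a, h1, ENNReal.ofReal_one]

theorem indepFun_wm {w : α → ℝ} (hw : ∀ a, 0 ≤ w a) {β : Type*} [MeasurableSpace β]
    {f g : α → β}
    (h : ∀ φ ψ : β → ℝ, ∑ a, w a * (φ (f a) * ψ (g a)) =
      (∑ a, w a * φ (f a)) * ∑ a, w a * ψ (g a)) : IndepFun f g (wm w) := by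
  classical
  rw [indepFun_iff_measure_inter_preimage_eq_mul]
  intro s t hs ht
  have key : ∀ A : Set α, wm w A = ENNReal.ofReal (∑ a, w a * (if a ∈ A then 1 else 0)) := by
    intro A
    unfold wm
    rw [Measure.finsetSum_apply, ENNReal.ofReal_sum_of_nonneg]
    · apply Finset.sum_congr rfl
      intro a _
      rw [Measure.smul_apply, Measure.dirac_apply, smul_eq_mul]
      by_cases ha : a ∈ A
      · simp [ha]
      · simp [ha]
    · intro a _
      have := hw a
      split_ifs <;> simp [this]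
  rw [key, key, key, ← ENNReal.ofReal_mul]
  · congr 1
    have := h (fun b => if b ∈ s then 1 else 0) (fun b => if b ∈ t then 1 else 0)
    simp only [Set.mem_inter_iff, Set.mem_preimage]
    rw [← this]
    apply Finset.sum_congr rfl
    intro a _
    by_cases h1 : f a ∈ s <;> by_cases h2 : g a ∈ t <;> simp [h1, h2]
  · apply Finset.sum_nonneg
    intro a _
    have := hw a
    split_ifs <;> simp [this]

end wm

section fin

variable {α : Type*} [Fintype α]

/-- Quenched mean of a complex variable. -/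
noncomputable def fmean (w : α → ℝ) (f : α → ℂ) : ℂ := ∑ a, (w a : ℂ) * f a

/-- The explicit dominating function. -/
noncomputable def fdom (w : α → ℝ) (n L : ℕ) (v : ℕ → α → ℂ) (a : α) : ℝ :=
  dom L (fun k a => if k < n then v k a - fmean w (v k) else 0) a

theorem fdom_nonneg (w : α → ℝ) (n L : ℕ) (v : ℕ → α → ℂ) (a : α) : 0 ≤ fdom w n L v a :=
  let _ : MeasurableSpace α := ⊤
  dom_nonneg _ _ _

/-- **Level 1**, surely. -/
theorem sq_le_fdom {w : α → ℝ} {n L : ℕ} (hn : n < 2 ^ L) (v : ℕ → α → ℂ) (a : α) {i j m : ℕ}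
    (hi : i ≤ n) (hj : j ≤ n) (hm : m ≤ n) :
    ‖(∑ k ∈ range j, (v k a - fmean w (v k))) - (∑ k ∈ range i, (v k a - fmean w (v k))) +
      ∑ k ∈ range m, (v k a - fmean w (v k))‖ ^ 2 ≤ fdom w n L v a := by
  let _ : MeasurableSpace α := ⊤
  have h := sq_le_dom hn (fun k a => if k < n then v k a - fmean w (v k) else 0) a hi hj hm
  have e : ∀ j ≤ n, ∑ k ∈ range j, (if k < n then v k a - fmean w (v k) else 0) =
      ∑ k ∈ range j, (v k a - fmean w (v k)) := by
    intro j hj
    apply Finset.sum_congr rfl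
    intro k hk
    rw [Finset.mem_range] at hk
    rw [if_pos (by omega)]
  rw [e i hi, e j hj, e m hm] at h
  exact h

/-- **Level 1**, mean of the dominating function. -/
theorem sum_fdom_le {w : α → ℝ} (hw : ∀ a, 0 ≤ w a) (h1 : ∑ a, w a = 1) {n L : ℕ}
    {v : ℕ → α → ℂ} {K : ℝ} (N : ℕ → Finset ℕ) (d : ℕ) (hd : ∀ i < n, (N i).card ≤ d)
    (hK0 : 0 ≤ K) (hK : ∀ k < n, ∑ a, w a * ‖v k a‖ ^ 2 ≤ K)
    (hind : ∀ i < n, ∀ j < n, j ∉ N i → ∀ φ ψ : ℂ → ℝ,
      ∑ a, w a * (φ (v i a) * ψ (v j a)) = (∑ a, w a * φ (v i a)) * ∑ a, w a * ψ (v j a)) :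
    ∑ a, w a * fdom w n L v a ≤ 9 * L ^ 2 * (d * n * K) := by
  let _ : MeasurableSpace α := ⊤
  have : DiscreteMeasurableSpace α := ⟨fun _ => trivial⟩
  have := isProbabilityMeasure_wm hw h1
  have hm : ∀ f : α → ℂ, ∫ a, f a ∂wm w = fmean w f := by
    intro f
    rw [integral_wm hw]
    unfold fmean
    apply Finset.sum_congr rfl
    intro a _
    rw [Complex.real_smul]
  have h2 : ∀ k < n, MemLp (v k) 2 (wm w) := fun k _ => MemLp.of_discrete
  have h := integral_dom_le (P := wm w) (n := n) (L := L) N d hd h2 hK0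
    (fun k hk => by
      rw [integral_wm hw]
      exact hK k hk)
    (fun i hi j hj hij => indepFun_wm hw (hind i hi j hj hij))
  rw [integral_wm hw] at h
  refine le_trans (le_of_eq ?_) h
  apply Finset.sum_congr rfl
  intro a _
  rw [smul_eq_mul]
  congr 1
  unfold fdom
  congr 1
  funext k a
  unfold cen
  rw [hm]

/-- **Level 1 on the ring**: `K a ^ 2` bounds the second moments, dependence of range `r`. -/
theorem ring_fin {M : ℕ} (hM : 0 < M) {w : α → ℝ} (hw : ∀ a, 0 ≤ w a) (h1 : ∑ a, w a = 1)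
    {v : ℕ → α → ℂ} {K : ℝ} (hK0 : 0 ≤ K) (r : ℕ)
    (hK : ∀ k < nc M, ∑ a, w a * ‖v k a‖ ^ 2 ≤ K * ms M ^ 2)
    (hind : ∀ i < nc M, ∀ j < nc M, j ∉ near (nc M) r i → ∀ φ ψ : ℂ → ℝ,
      ∑ a, w a * (φ (v i a) * ψ (v j a)) = (∑ a, w a * φ (v i a)) * ∑ a, w a * ψ (v j a)) :
    ∑ a, w a * fdom w (nc M) (Nat.log 2 (12 * M) + 1) v a ≤ err (K * (216 * (r + 1))) M := by
  have hn : 0 < nc M := by unfold nc; omega
  have h := sum_fdom_le hw h1 (n := nc M) (L := Nat.log 2 (12 * M) + 1) (v := v)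
    (K := K * ms M ^ 2) (near (nc M) r) (2 * (r + 1)) (fun i _ => card_near hn)
    (by positivity) hK hind
  refine h.trans ?_
  have hms := ms_pos hM
  have hncM : (nc M : ℝ) * ms M ^ 2 ≤ 12 * ms M := by
    have h1 : (nc M : ℝ) ≤ 12 * M := by
      have : nc M ≤ 12 * M := by unfold nc; omega
      exact_mod_cast this
    have h3 := M_mul_ms hM
    calc (nc M : ℝ) * ms M ^ 2 ≤ 12 * M * ms M ^ 2 :=
          mul_le_mul_of_nonneg_right h1 (by positivity)
      _ = 12 * ((M : ℝ) * ms M) * ms M := by ring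
      _ = 12 * ms M := by rw [h3]; ring
  unfold err
  push_cast
  have e : 9 * ((Nat.log 2 (12 * M) : ℝ) + 1) ^ 2 * (2 * ((r : ℝ) + 1) * (nc M : ℝ) *
      (K * ms M ^ 2)) = (18 * ((Nat.log 2 (12 * M) : ℝ) + 1) ^ 2 * ((r : ℝ) + 1) * K) *
      ((nc M : ℝ) * ms M ^ 2) := by ring
  rw [e]
  calc _ ≤ (18 * ((Nat.log 2 (12 * M) : ℝ) + 1) ^ 2 * ((r : ℝ) + 1) * K) * (12 * ms M) :=
        mul_le_mul_of_nonneg_left hncM (by positivity)
    _ = _ := by unfold ms; ring

/-- **Combination of the two levels**, surely: `G₂` is the bound of the annealed level for the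
quenched means. -/
theorem two_level {M : ℕ} {w : α → ℝ} {L : ℕ} (hL : nc M < 2 ^ L) (v : ℕ → α → ℂ) {c : ℂ}
    {G₂ : ℝ} (hG₂ : ∀ i ≤ nc M, ∀ j ≤ nc M,
      ‖arcSum (nc M) (fun k => fmean w (v k)) i j - c * (gateC M j - gateC M i)‖ ^ 2 ≤ G₂)
    (a : α) {i j : ℕ} (hi : i ≤ nc M) (hj : j ≤ nc M) :
    ‖arcSum (nc M) (fun k => v k a) i j - c * (gateC M j - gateC M i)‖ ^ 2 ≤
      2 * fdom w (nc M) L v a + 2 * G₂ := by
  have h1 : ‖arcSum (nc M) (fun k => v k a) i j - arcSum (nc M) (fun k => fmean w (v k)) i j‖ ^ 2 ≤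
      fdom w (nc M) L v a := by
    unfold arcSum
    split_ifs with hij
    · have h := sq_le_fdom (w := w) hL v a hi hj (Nat.zero_le _)
      rw [Finset.sum_Ico_eq_sub _ hij, Finset.sum_Ico_eq_sub _ hij]
      simp only [Finset.range_zero, Finset.sum_empty, add_zero] at h
      refine le_trans (le_of_eq ?_) h
      congr 2
      rw [Finset.sum_sub_distrib, Finset.sum_sub_distrib]
      ring
    · have h := sq_le_fdom (w := w) hL v a hi hj le_rfl
      rw [Finset.sum_Ico_eq_sub _ hi, Finset.sum_Ico_eq_sub _ hi]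
      refine le_trans (le_of_eq ?_) h
      congr 2
      rw [Finset.sum_sub_distrib, Finset.sum_sub_distrib, Finset.sum_sub_distrib]
      ring
  have h2 := hG₂ i hi j hj
  set A := arcSum (nc M) (fun k => v k a) i j with hA
  set B := arcSum (nc M) (fun k => fmean w (v k)) i j with hB
  set C := c * (gateC M j - gateC M i) with hC
  have h3 : ‖A - C‖ ≤ ‖A - B‖ + ‖B - C‖ := by
    have := norm_add_le (A - B) (B - C)
    rwa [sub_add_sub_cancel] at this
  have h4 := norm_nonneg (A - B)
  have h5 := norm_nonneg (B - C)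
  have h6 := norm_nonneg (A - C)
  nlinarith [sq_nonneg (‖A - B‖ - ‖B - C‖)]

end fin

end Vale.Agent.P148.R2.H504
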