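import Vale.Agent.P148.R2.H504.Far
import Vale.Agent.P148.R2.H938.CombP

/-!
# Windows of the pieces and the gates which touch them

`Zk M k` : the open square with the centre of the cell `k` and half side `3 * ms M`.
`tk M k` : the gates whose boxes may meet `Zk M k` (at most 22). If `j ∉ near (nc M) 20 i` then
`Zk M i`, `Zk M j` are disjoint and `tk M i`, `tk M j` are disjoint.
-/

namespace Vale.Agent.P148.R2.H504

open Finset N Complex
open H995 (nsup prad)
open H678 (pin pout sd hbox CBox uo)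
open H938 (HBx CBx VB LB UB RB)

variable {M : ℕ}

theorem csq_mono {z : ℂ} {R R' : ℝ} (h : R ≤ R') : csq z R ⊆ csq z R' := fun _ hw =>
  ⟨hw.1.trans_le h, hw.2.trans_le h⟩

theorem mem_csq_cell {k : ℕ} {w : ℂ} {R : ℝ} :
    I ^ (k / (2 * M + 1)) * w ∈ csq (cellC M k) R ↔ w ∈ csq (zc M (k % (2 * M + 1))) R := by
  rw [cellC_eq, csq_I_pow]

theorem gbox_sub_csq (hM : 0 < M) (k : ℕ) : gbox M k ⊆ csq (cellC M k) (9 / 4 * ms M) := by
  intro z hz
  have h0 := ms_pos hM
  obtain ⟨w, rfl⟩ := exists_eq_I_pow_mul (k / (2 * M + 1)) z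
  obtain ⟨⟨a1, a2⟩, a3, a4⟩ := mem_gbox_iff.1 hz
  rw [mem_csq_cell, mem_csq]
  simp only [zc]
  rw [abs_lt, abs_lt]
  refine ⟨⟨?_, ?_⟩, ?_, ?_⟩ <;> linarith

theorem cell_sub_csq (hM : 0 < M) (k : ℕ) : cell M k ⊆ csq (cellC M k) (9 / 4 * ms M) := by
  have h0 := ms_pos hM
  exact csq_mono (by linarith)

theorem rad_sub_csq (hM : 0 < M) (k : ℕ) :
    CBox M (pout M k) (prad M k) ⊆ csq (cellC M k) (9 / 4 * ms M) := by
  intro z hz
  have h0 := ms_pos hM
  have h4 := H995.sd_pos hM
  have h5 : ms M = 256 * sd M := by unfold sd; ring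
  obtain ⟨w, rfl⟩ := exists_eq_I_pow_mul (k / (2 * M + 1)) z
  obtain ⟨⟨a1, a2⟩, a3, a4⟩ := H995.rad_local hM hz
  rw [mem_csq_cell, mem_csq]
  simp only [zc]
  rw [abs_lt, abs_lt]
  refine ⟨⟨?_, ?_⟩, ?_, ?_⟩ <;> linarith

theorem hbx_sub_csq (hM : 0 < M) (k : ℕ) : HBx M k ⊆ csq (cellC M k) (9 / 4 * ms M) :=
  (Set.union_subset (H995.hbox_pin_sub hM k) (H995.hbox_pout_sub hM k)).trans (gbox_sub_csq hM k)

theorem cbx_sub_csq (hM : 0 < M) (k : ℕ) : CBx M k ⊆ csq (cellC M k) (9 / 4 * ms M) :=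
  Set.union_subset
    (Set.union_subset ((H995.tooth_sub hM k).trans (gbox_sub_csq hM k)) (rad_sub_csq hM k))
    ((Set.union_subset (H995.rail_in_sub hM k) (H995.rail_out_sub hM k)).trans
      (cell_sub_csq hM k))

/-- The window of the piece `k`. -/
noncomputable def Zk (M k : ℕ) : Set ℂ := csq (cellC M k) (3 * ms M)

open Classical in
/-- The gates which may touch the window of the piece `k`. -/
noncomputable def tk (M k : ℕ) : Finset ℕ :=
  (range (nc M)).filter fun l => nsup (cellC M l - cellC M k) < 21 / 4 * ms M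

theorem tk_sub (M k : ℕ) : tk M k ⊆ range (nc M) := by
  classical
  exact filter_subset _ _

theorem disjoint_of_nsup {z z' : ℂ} {R R' : ℝ} (h : R + R' ≤ nsup (z - z')) :
    Disjoint (csq z R) (csq z' R') := by
  rw [Set.disjoint_left]
  intro w hw hw'
  rw [mem_csq] at hw hw'
  have h2 : nsup (z - z') < R + R' := by
    unfold nsup
    rw [max_lt_iff]
    constructor
    · have := abs_sub_le z.re w.re z'.re
      rw [Complex.sub_re]
      rw [abs_sub_comm z.re w.re] at this
      linarith [hw.1, hw'.1]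
    · have := abs_sub_le z.im w.im z'.im
      rw [Complex.sub_im]
      rw [abs_sub_comm z.im w.im] at this
      linarith [hw.2, hw'.2]
  linarith

/-- The boxes of the other gates miss the window. -/
theorem disjoint_box (hM : 0 < M) {k l : ℕ} (hl : l < nc M) (h : l ∉ tk M k) :
    Disjoint (HBx M l) (Zk M k) ∧ Disjoint (CBx M l) (Zk M k) := by
  classical
  have h1 : 21 / 4 * ms M ≤ nsup (cellC M l - cellC M k) := by
    by_contra hcon
    apply h
    unfold tk
    rw [mem_filter, mem_range]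
    exact ⟨hl, not_le.1 hcon⟩
  have h2 : Disjoint (csq (cellC M l) (9 / 4 * ms M)) (Zk M k) :=
    disjoint_of_nsup (by linarith)
  exact ⟨h2.mono_left (hbx_sub_csq hM l), h2.mono_left (cbx_sub_csq hM l)⟩

theorem tk_sub_near (hM : 0 < M) {k : ℕ} (hk : k < nc M) : tk M k ⊆ near (nc M) 10 k := by
  classical
  intro l hl
  unfold tk at hl
  rw [mem_filter, mem_range] at hl
  by_contra hcon
  have h1 := far_cell hM hk hl.1 hcon
  have h0 := ms_pos hM
  have h2 := hl.2
  push_cast at h1
  linarith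

theorem card_tk (hM : 0 < M) {k : ℕ} (hk : k < nc M) : (tk M k).card ≤ 22 :=
  (card_le_card (tk_sub_near hM hk)).trans (card_near (by unfold nc; omega))

theorem nsup_sub_le (x y z : ℂ) : nsup (x - z) ≤ nsup (x - y) + nsup (y - z) := by
  unfold nsup
  apply max_le
  · have := abs_sub_le x.re y.re z.re
    simp only [Complex.sub_re]
    linarith [le_max_left |x.re - y.re| |(x - y).im|, le_max_left |y.re - z.re| |(y - z).im|]
  · have := abs_sub_le x.im y.im z.im
    simp only [Complex.sub_im]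
    linarith [le_max_right |(x - y).re| |x.im - y.im|, le_max_right |(y - z).re| |y.im - z.im|]

/-- Distant pieces: disjoint windows, disjoint sets of gates. -/
theorem disjoint_tk (hM : 0 < M) {i j : ℕ} (hi : i < nc M) (hj : j < nc M)
    (h : j ∉ near (nc M) 20 i) : Disjoint (tk M i) (tk M j) := by
  classical
  rw [Finset.disjoint_left]
  intro l hl hl'
  unfold tk at hl hl'
  rw [mem_filter] at hl hl'
  have h1 := far_cell hM hi hj h
  have h0 := ms_pos hM
  have h2 := nsup_sub_le (cellC M j) (cellC M l) (cellC M i)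
  have h3 : nsup (cellC M j - cellC M l) = nsup (cellC M l - cellC M j) := by
    rw [← nsup_neg, neg_sub]
  have h4 := hl.2
  have h5 := hl'.2
  push_cast at h1
  linarith

theorem disjoint_Zk (hM : 0 < M) {i j : ℕ} (hi : i < nc M) (hj : j < nc M)
    (h : j ∉ near (nc M) 20 i) : Disjoint (Zk M i) (Zk M j) := by
  have h0 := ms_pos hM
  refine disjoint_csq hM hi hj h ?_
  push_cast
  linarith

end Vale.Agent.P148.R2.H504
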