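import Vale.Agent.P148.R2.H504.Bridge
import Vale.Agent.P148.R2.H291.Site

/-!
# The local means on the sites of a world

* `nAgree_of_stab` : two sets of points which agree near the points of `A` have the same
  neighbour relation there
* `Wk M k` : the window of the local mean; the boxes of the gates in `tk M k` are inside
* `mker_local` : the local mean computed on all sites is that computed on the sites of the window
-/

namespace Vale.Agent.P148.R2.H504

open Finset N
open H938 (HBx CBx)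
open H592 (nbr)
open H184 (Dt)
open H291 (Stab adj_congr nbr_iff_adj site bR SiteOK)
open Metric (ball closedBall mem_closedBall mem_closedBall_self mem_ball)
open _root_.P148
open scoped Classical

section stab

variable {X Y A W : Set ℂ} {s : ℝ}

theorem nbr_agree {u v : ℂ} (hs : Stab X u s) (h0 : 0 < s)
    (h : X ∩ closedBall u (5 * s) = Y ∩ closedBall u (5 * s)) : nbr Y u v ↔ nbr X u v := by
  rw [nbr_iff_adj, nbr_iff_adj]
  exact ⟨adj_congr hs h0 h, adj_congr (hs.congr h0 (by rw [h]; exact Set.inter_subset_left)) h0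
    h.symm⟩

theorem nAgree_of_stab (h0 : 0 < s) (hs : ∀ u ∈ A, Stab X u s)
    (h : ∀ u ∈ A, X ∩ closedBall u (5 * s) = Y ∩ closedBall u (5 * s)) : NAgree X Y A where
  pts := by
    ext u
    constructor
    · rintro ⟨h1, h2⟩
      have : u ∈ Y ∩ closedBall u (5 * s) := ⟨h1, mem_closedBall_self (by positivity)⟩
      rw [← h u h2] at this
      exact ⟨this.1, h2⟩
    · rintro ⟨h1, h2⟩
      have : u ∈ X ∩ closedBall u (5 * s) := ⟨h1, mem_closedBall_self (by positivity)⟩
      rw [h u h2] at this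
      exact ⟨this.1, h2⟩
  nb u hu v := nbr_agree (hs u hu) h0 (h u hu)

/-- The points of a window. -/
theorem nAgree_window (h0 : 0 < s) (hs : ∀ u ∈ A, Stab X u s)
    (hW : ∀ u ∈ A, closedBall u (5 * s) ⊆ W) : NAgree X (X ∩ W) A :=
  nAgree_of_stab h0 hs fun u hu => (inter_inter_sub (hW u hu)).symm

end stab

section win

variable {M : ℕ}

/-- The window of the local mean. -/
noncomputable def Wk (M k : ℕ) : Set ℂ := csq (cellC M k) (8 * ms M)

/-- The points at which the neighbour relation of the window is that of the plane. -/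
noncomputable def Wi (M k : ℕ) : Set ℂ := csq (cellC M k) (15 / 2 * ms M)

theorem mem_csq_nsup {z w : ℂ} {R : ℝ} : w ∈ csq z R ↔ H995.nsup (w - z) < R := by
  unfold H995.nsup
  rw [mem_csq, max_lt_iff, Complex.sub_re, Complex.sub_im]

theorem csq_sub_csq {z z' : ℂ} {R Q : ℝ} (h : H995.nsup (z - z') + R ≤ Q) :
    csq z R ⊆ csq z' Q := by
  intro w hw
  rw [mem_csq_nsup] at hw ⊢
  have h1 := nsup_sub_le w z z'
  linarith

theorem box_sub_Wi (hM : 0 < M) {k l : ℕ} (h : l ∈ tk M k) : HBx M l ⊆ Wi M k ∧ CBx M l ⊆ Wi M k := by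
  have h0 := ms_pos hM
  have h1 : H995.nsup (cellC M l - cellC M k) < 21 / 4 * ms M := (mem_filter.1 h).2
  have h2 : csq (cellC M l) (9 / 4 * ms M) ⊆ Wi M k := csq_sub_csq (by linarith)
  exact ⟨(hbx_sub_csq hM l).trans h2, (cbx_sub_csq hM l).trans h2⟩

theorem Zk_sub_Wi (hM : 0 < M) (k : ℕ) : Zk M k ⊆ Wi M k :=
  csq_mono (by have := ms_pos hM; linarith)

theorem Wi_sub_Wk (hM : 0 < M) (k : ℕ) : Wi M k ⊆ Wk M k :=
  csq_mono (by have := ms_pos hM; linarith)

theorem ball_sub_Wk {s : ℝ} (hs : 10 * s ≤ ms M) {k : ℕ} {u : ℂ} (hu : u ∈ Wi M k) :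
    closedBall u (5 * s) ⊆ Wk M k := by
  intro w hw
  rw [mem_closedBall, dist_eq_norm] at hw
  unfold Wi at hu
  unfold Wk
  rw [mem_csq_nsup] at hu ⊢
  have h1 := nsup_sub_le w u (cellC M k)
  have h2 := H291.nsup_le_norm (w - u)
  linarith

theorem norm_cellC_le (hM : 0 < M) (k : ℕ) : ‖cellC M k‖ ≤ 2 + 2 * ms M := by
  have h0 := ms_pos hM
  have h3 := mod_mul_le hM k
  have h4 : (0 : ℝ) ≤ ((k % (2 * M + 1) : ℕ) : ℝ) * ms M := by positivity
  rw [cellC_eq, norm_mul, norm_pow, Complex.norm_I, one_pow, one_mul]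
  refine (Complex.norm_le_abs_re_add_abs_im _).trans ?_
  simp only [zc]
  rw [abs_of_pos (by positivity)]
  have h6 : |(-1 : ℝ) + ms M / 2 + ((k % (2 * M + 1) : ℕ) : ℝ) * ms M| ≤ 1 + ms M / 2 := by
    rw [abs_le]; constructor <;> linarith
  linarith

/-- The windows are in a fixed disc. -/
theorem Wk_sub_ball (hM : 16 ≤ M) (k : ℕ) : Wk M k ⊆ ball 0 5 := by
  intro w hw
  have h0 := ms_pos (show 0 < M by omega)
  have hMM := M_mul_ms (show 0 < M by omega)
  have h16 : (16 : ℝ) ≤ M := by exact_mod_cast hM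
  have h8 : ms M ≤ 1 / 8 := by nlinarith
  have h1 := norm_cellC_le (show 0 < M by omega) k
  unfold Wk at hw
  rw [mem_csq_nsup] at hw
  have h2 := H291.norm_le_nsup (w - cellC M k)
  have h3 : ‖w‖ ≤ ‖w - cellC M k‖ + ‖cellC M k‖ := by
    have := norm_add_le (w - cellC M k) (cellC M k)
    rwa [sub_add_cancel] at this
  rw [Metric.mem_ball, dist_zero_right]
  linarith

/-- **The local mean on all sites is that on the sites of the window.** -/
theorem mker_local {V : Type*} [Fintype V] {e : V → ℂ} (he : Function.Injective e) (hM : 0 < M)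
    {k : ℕ} {s : ℝ} (h0 : 0 < s) (hs : 10 * s ≤ ms M)
    (hst : ∀ u ∈ Wi M k, Stab (Set.range e) u s) {Y : Set ℂ} [Fintype Y]
    (hY : Y = Set.range e ∩ Wk M k) (Θ : Dt → ℂ) :
    mker M (tk M k) k (Subtype.val : Y → ℂ) Θ = mker M (tk M k) k e Θ := by
  have hmem : ∀ y : Y, ∃ v, e v = y.1 := fun y => (hY ▸ y.2 : y.1 ∈ Set.range e ∩ Wk M k).1
  choose ι hι using hmem
  have hinj : Function.Injective ι := fun y y' h => Subtype.ext (by rw [← hι y, ← hι y', h])
  have hcomp : e ∘ ι = Subtype.val := funext hι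
  have hW : ∀ v, e v ∈ Wk M k ↔ v ∈ Set.range ι := by
    intro v
    constructor
    · intro hv
      have hvY : e v ∈ Y := by rw [hY]; exact ⟨⟨v, rfl⟩, hv⟩
      exact ⟨⟨e v, hvY⟩, he (hι _)⟩
    · rintro ⟨y, rfl⟩
      rw [hι]
      exact (hY ▸ y.2 : y.1 ∈ Set.range e ∩ Wk M k).2
  rw [← hcomp]
  have hag : NAgree (Set.range e) (Set.range e ∩ Wk M k) (Wi M k) :=
    nAgree_window h0 hst fun u hu => ball_sub_Wk hs hu
  exact mker_window hinj hW (fun l hl => (box_sub_Wi hM hl).1.trans (Wi_sub_Wk hM k))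
    (fun l hl => (box_sub_Wi hM hl).2.trans (Wi_sub_Wk hM k))
    ((Zk_sub_Wi hM k).trans (Wi_sub_Wk hM k)) (fun l hl => hag.mono (box_sub_Wi hM hl).1)
    (fun l hl => hag.mono (box_sub_Wi hM hl).2) Θ

/-- The same for the sites of a world. -/
theorem mker_site {V : Type*} [Fintype V] {e : V → ℂ} (he : Function.Injective e) (hM : 16 ≤ M)
    {k : ℕ} {T : Set Pt} {R s : ℝ} (hR : 7 ≤ R) (hT : SiteOK T R s) (hs : 10 * s ≤ ms M)
    (hr : Set.range e = site T R) {Y : Set ℂ} [Fintype Y] (hY : Y = pts T ∩ Wk M k)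
    (Θ : Dt → ℂ) :
    mker M (tk M k) k (Subtype.val : Y → ℂ) Θ = mker M (tk M k) k e Θ := by
  have hM0 : 0 < M := by omega
  have hb : Wk M k ⊆ ball 0 R := (Wk_sub_ball hM k).trans
    (Metric.ball_subset_ball (by linarith))
  refine mker_local he hM0 hT.hs hs (fun u hu => ?_) (by rw [hY, hr, hT.agree hb]) Θ
  rw [hr]
  refine hT.stabX (Metric.ball_subset_closedBall ?_)
  exact Metric.ball_subset_ball (by linarith) (Wk_sub_ball hM k (Wi_sub_Wk hM0 k hu))

end win

end Vale.Agent.P148.R2.H504
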