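import Vale.Agent.P148.R2.H504.Ring
import Vale.Agent.P148.R2.H995.Surg

/-!
# Cyclic distance of the indices and distance of the cells

If the cyclic distance of `i` and `j` is greater than `r` then the sup distance of the centres of
the cells `i` and `j` is at least `(r + 1) / 2 * ms M` (sharp at the corners).
-/

namespace Vale.Agent.P148.R2.H504

open Finset N Complex
open H995 (nsup)

variable {M : ℕ}

theorem nsup_I_mul (w : ℂ) : nsup (I * w) = nsup w := by
  simp [nsup, Complex.mul_re, Complex.mul_im, max_comm]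

theorem nsup_I_pow_mul (s : ℕ) (w : ℂ) : nsup (I ^ s * w) = nsup w := by
  induction s with
  | zero => simp
  | succ s ih => rw [pow_succ', mul_assoc, nsup_I_mul, ih]

theorem nsup_neg (w : ℂ) : nsup (-w) = nsup w := by simp [nsup]

theorem near_symm {n r i j : ℕ} (hi : i < n) (h : j ∈ near n r i) : i ∈ near n r j := by
  unfold near at h ⊢
  rw [mem_filter, mem_range] at h ⊢
  obtain ⟨-, t, ht, h1⟩ := h
  exact ⟨hi, t, ht, h1.symm⟩

/-- A point of side `0`. -/
noncomputable def zc (M p : ℕ) : ℂ := ⟨1 + ms M / 2, -1 + ms M / 2 + (p : ℕ) * ms M⟩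

theorem cellC_eq (M k : ℕ) : cellC M k = I ^ (k / (2 * M + 1)) * zc M (k % (2 * M + 1)) := rfl

theorem far_aux (hM : 0 < M) {r i j : ℕ} (hi : i < nc M) (hj : j < nc M)
    (hs : i / (2 * M + 1) ≤ j / (2 * M + 1)) (h : j ∉ near (nc M) r i) :
    ((r : ℝ) + 1) / 2 * ms M ≤ nsup (cellC M j - cellC M i) := by
  have hms := ms_pos hM
  have hMa := M_mul_ms hM
  obtain ⟨s, hs1⟩ : ∃ s, s = i / (2 * M + 1) := ⟨_, rfl⟩
  obtain ⟨p, hp1⟩ : ∃ p, p = i % (2 * M + 1) := ⟨_, rfl⟩
  obtain ⟨s', hs2⟩ : ∃ s, s = j / (2 * M + 1) := ⟨_, rfl⟩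
  obtain ⟨q, hq1⟩ : ∃ q, q = j % (2 * M + 1) := ⟨_, rfl⟩
  have hi2 : i = (2 * M + 1) * s + p := by rw [hs1, hp1]; exact (Nat.div_add_mod _ _).symm
  have hj2 : j = (2 * M + 1) * s' + q := by rw [hs2, hq1]; exact (Nat.div_add_mod _ _).symm
  have hp : p ≤ 2 * M := by rw [hp1]; exact mod_le M i
  have hq : q ≤ 2 * M := by rw [hq1]; exact mod_le M j
  have hs4 : s' < 4 := by rw [hs2]; exact div_lt_four hj
  rw [← hs1, ← hs2] at hs
  rw [cellC_eq, cellC_eq, ← hs1, ← hp1, ← hs2, ← hq1]
  obtain ⟨t, ht⟩ : ∃ t, t = s' - s := ⟨_, rfl⟩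
  have hst : s' = s + t := by omega
  have ht4 : t < 4 := by omega
  have hpt : (I : ℂ) ^ s' * zc M q - I ^ s * zc M p = I ^ s * (I ^ t * zc M q - zc M p) := by
    rw [hst, pow_add]; ring
  rw [hpt, nsup_I_pow_mul]
  have hnc : nc M = 4 * (2 * M + 1) := rfl
  have e3 : (2 * M + 1) * s' = (2 * M + 1) * s + (2 * M + 1) * t := by rw [hst, mul_add]
  -- what `h` says
  have key1 : ∀ D, i + D = j → r < D := by
    intro D hD
    by_contra hcon
    apply h
    unfold near
    rw [mem_filter, mem_range]
    exact ⟨hj, D, by omega, Or.inl (by rw [hD, Nat.mod_eq_of_lt hj])⟩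
  have key2 : ∀ D, j + D = i → r < D := by
    intro D hD
    by_contra hcon
    apply h
    unfold near
    rw [mem_filter, mem_range]
    exact ⟨hj, D, by omega, Or.inr (by rw [hD, Nat.mod_eq_of_lt hi])⟩
  have key3 : ∀ D, j + D = i + nc M → r < D := by
    intro D hD
    by_contra hcon
    apply h
    unfold near
    rw [mem_filter, mem_range]
    exact ⟨hj, D, by omega, Or.inr (by rw [hD, Nat.add_mod_right, Nat.mod_eq_of_lt hi])⟩
  have hp' : (p : ℝ) ≤ 2 * M := by exact_mod_cast hp
  have hq' : (q : ℝ) ≤ 2 * M := by exact_mod_cast hq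
  have hr0 : (0 : ℝ) ≤ r := Nat.cast_nonneg r
  interval_cases t
  · -- the same side
    rw [pow_zero, one_mul]
    rcases le_total p q with hpq | hpq
    · have h1 : r < q - p := key1 (q - p) (by omega)
      have h2 : (r : ℝ) + 1 + p ≤ q := by exact_mod_cast (show r + 1 + p ≤ q by omega)
      have h3 : ((r : ℝ) + 1) * ms M ≤ (q - p) * ms M :=
        mul_le_mul_of_nonneg_right (by linarith) hms.le
      have h4 : (zc M q - zc M p).im = (q - p) * ms M := by
        simp [zc]; ring
      refine le_trans ?_ (le_max_right _ _)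
      rw [h4]
      refine le_trans ?_ (le_abs_self _)
      nlinarith
    · have h1 : r < p - q := key2 (p - q) (by omega)
      have h2 : (r : ℝ) + 1 + q ≤ p := by exact_mod_cast (show r + 1 + q ≤ p by omega)
      have h3 : ((r : ℝ) + 1) * ms M ≤ (p - q) * ms M :=
        mul_le_mul_of_nonneg_right (by linarith) hms.le
      have h4 : (zc M q - zc M p).im = -((p - q) * ms M) := by
        simp [zc]; ring
      refine le_trans ?_ (le_max_right _ _)
      rw [h4, abs_neg]
      refine le_trans ?_ (le_abs_self _)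
      nlinarith
  · -- next side
    rw [pow_one]
    have h1 : r < (2 * M - p) + (q + 1) := key1 _ (by omega)
    have h2 : (r : ℝ) + 1 ≤ (2 * M - p) + (q + 1) := by
      have : r + 1 + p ≤ 2 * M + (q + 1) := by omega
      have h3 : (r : ℝ) + 1 + p ≤ 2 * M + (q + 1) := by exact_mod_cast this
      linarith
    have h4 : (I * zc M q - zc M p).re = -((q + 1) * ms M) := by
      simp [zc]; ring
    have h5 : (I * zc M q - zc M p).im = (2 * M - p) * ms M := by
      simp [zc]
      linear_combination (-2 : ℝ) * hMa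
    rcases le_total ((q : ℝ) + 1) (2 * M - p) with h6 | h6
    · refine le_trans ?_ (le_max_right _ _)
      rw [h5]
      refine le_trans ?_ (le_abs_self _)
      exact mul_le_mul_of_nonneg_right (by linarith) hms.le
    · refine le_trans ?_ (le_max_left _ _)
      rw [h4, abs_neg]
      refine le_trans ?_ (le_abs_self _)
      exact mul_le_mul_of_nonneg_right (by linarith) hms.le
  · -- opposite sides
    have h1 : r < 2 * (2 * M + 1) + q - p := key1 _ (by omega)
    have h2 : r < 2 * (2 * M + 1) + p - q := key3 _ (by omega)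
    have h3 : (r : ℝ) + 1 ≤ 2 * (2 * M + 1) := by
      exact_mod_cast (show r + 1 ≤ 2 * (2 * M + 1) by omega)
    have h4 : (I ^ 2 * zc M q - zc M p).re = -((2 * M + 1) * ms M) := by
      rw [I_sq]
      simp [zc]
      linear_combination (2 : ℝ) * hMa
    refine le_trans ?_ (le_max_left _ _)
    rw [h4, abs_neg]
    refine le_trans ?_ (le_abs_self _)
    exact mul_le_mul_of_nonneg_right (by linarith) hms.le
  · -- previous side
    have h1 : r < (2 * M - q) + (p + 1) := key3 _ (by omega)
    have h2 : (r : ℝ) + 1 ≤ (2 * M - q) + (p + 1) := by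
      have : r + 1 + q ≤ 2 * M + (p + 1) := by omega
      have h3 : (r : ℝ) + 1 + q ≤ 2 * M + (p + 1) := by exact_mod_cast this
      linarith
    have hI3 : (I : ℂ) ^ 3 = -I := by rw [pow_succ, I_sq]; ring
    have h4 : (I ^ 3 * zc M q - zc M p).re = -((2 * M - q) * ms M) := by
      rw [hI3]
      simp [zc]
      linear_combination (2 : ℝ) * hMa
    have h5 : (I ^ 3 * zc M q - zc M p).im = -((p + 1) * ms M) := by
      rw [hI3]
      simp [zc]; ring
    rcases le_total ((p : ℝ) + 1) (2 * M - q) with h6 | h6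
    · refine le_trans ?_ (le_max_left _ _)
      rw [h4, abs_neg]
      refine le_trans ?_ (le_abs_self _)
      exact mul_le_mul_of_nonneg_right (by linarith) hms.le
    · refine le_trans ?_ (le_max_right _ _)
      rw [h5, abs_neg]
      refine le_trans ?_ (le_abs_self _)
      exact mul_le_mul_of_nonneg_right (by linarith) hms.le

/-- **Cells at cyclic distance greater than `r`.** -/
theorem far_cell (hM : 0 < M) {r i j : ℕ} (hi : i < nc M) (hj : j < nc M)
    (h : j ∉ near (nc M) r i) :
    ((r : ℝ) + 1) / 2 * ms M ≤ nsup (cellC M j - cellC M i) := by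
  rcases le_total (i / (2 * M + 1)) (j / (2 * M + 1)) with hs | hs
  · exact far_aux hM hi hj hs h
  · have h' : i ∉ near (nc M) r j := fun hn => h (near_symm hj hn)
    have := far_aux hM hj hi hs h'
    rwa [← nsup_neg, neg_sub] at this

/-- Windows: open squares of half side `R` around the cells are disjoint when
`4 R ≤ (r + 1) * ms M`. -/
theorem disjoint_csq (hM : 0 < M) {r i j : ℕ} (hi : i < nc M) (hj : j < nc M)
    (h : j ∉ near (nc M) r i) {R R' : ℝ} (hR : R + R' ≤ ((r : ℝ) + 1) / 2 * ms M) :
    Disjoint (csq (cellC M i) R) (csq (cellC M j) R') := by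
  rw [Set.disjoint_left]
  intro z hz hz'
  rw [mem_csq] at hz hz'
  have h1 := far_cell hM hi hj h
  have h2 : nsup (cellC M j - cellC M i) < R + R' := by
    unfold nsup
    rw [max_lt_iff]
    constructor
    · have := abs_sub_le (cellC M j).re z.re (cellC M i).re
      rw [Complex.sub_re]
      rw [abs_sub_comm (cellC M j).re z.re] at this
      linarith [hz.1, hz'.1]
    · have := abs_sub_le (cellC M j).im z.im (cellC M i).im
      rw [Complex.sub_im]
      rw [abs_sub_comm (cellC M j).im z.im] at this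
      linarith [hz.2, hz'.2]
  linarith

end Vale.Agent.P148.R2.H504
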