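import Vale.Agent.P148.R2.H504.Gl
import Vale.Agent.P148.R2.H504.Tk
import Vale.Agent.P148.R2.H598.Lln2
import Vale.Agent.P148.R2.H565.Vk

/-!
# Row N5: the quenched inputs (`H598.Quen`) for the comb

* `quen_gl` : `Quen` for a `GateLaw` and local functions of the composite colouring
* `bset e σ` : the black sites, `cF` : the value of the cell as a function of the colouring,
  `cF_on` : it depends on the colours in the window of the cell
* `quen_comb` : `Quen` for the values of the cells, for a `GateLaw` with the boxes of the comb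
-/

namespace Vale.Agent.P148.R2.H504

open Finset N
open H953 (ex pr On)
open H172 (GateLaw ex2)
open H938 (HBx CBx)
open H184 (Dt)
open scoped Classical

theorem near_mono {n r r' : ℕ} (h : r ≤ r') (i : ℕ) : near n r i ⊆ near n r' i := by
  intro j hj
  unfold near at hj ⊢
  rw [mem_filter] at hj ⊢
  obtain ⟨h1, t, ht, h2⟩ := hj
  exact ⟨h1, t, ht.trans h, h2⟩

variable {V : Type*} [Fintype V] (g : GateLaw V)

set_option linter.unusedSectionVars false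

/-- **Quenched inputs of the law of large numbers** for a `GateLaw`. -/
theorem quen_gl {M : ℕ} {c : ℝ} (hc : 0 < c) (hH : ∀ k < g.n, c ≤ pr (g.He k))
    (hC : ∀ k < g.n, c ≤ pr (g.Ce k)) {K : ℝ} (r : ℕ)
    (F : ℕ → (V → Bool) → ℂ) (Z : ℕ → Set V) (t : ℕ → Finset ℕ)
    (hF : ∀ k < nc M, On (Z k) (F k)) (ht : ∀ k < nc M, g.Touch (Z k) (t k))
    (hZZ : ∀ i < nc M, ∀ j < nc M, j ∉ near (nc M) r i → Disjoint (Z i) (Z j))
    (htt : ∀ i < nc M, ∀ j < nc M, j ∉ near (nc M) r i → Disjoint (t i) (t j))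
    (hK : ∀ k < nc M, (g.qe fun c₁ c₂ => ‖F k (g.w c₁ c₂)‖ ^ 2) ≤ K * ms M ^ 2) :
    H598.Quen M r K (gw g) (fun k p => F k (g.w p.1 p.2)) (fun k => qm g (F k)) where
  w0 := gw_nonneg g
  w1 := by
    have := sum_gw g fun _ _ => 1
    simp only [mul_one] at this
    rw [this]
    exact g.qe_const hc hH hC 1
  sq k hk := by
    rw [sum_gw g fun c₁ c₂ => ‖F k (g.w c₁ c₂)‖ ^ 2]
    exact hK k hk
  ind i hi j hj hij φ ψ := by
    rw [sum_gw g fun c₁ c₂ => φ (F i (g.w c₁ c₂)) * ψ (F j (g.w c₁ c₂)),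
      sum_gw g fun c₁ c₂ => φ (F i (g.w c₁ c₂)), sum_gw g fun c₁ c₂ => ψ (F j (g.w c₁ c₂))]
    exact g.qe_indep hc hH hC (ht i hi) (ht j hj) (htt i hi j hj hij) (hZZ i hi j hj hij)
      (F := fun σ => φ (F i σ)) (G := fun σ => ψ (F j σ))
      (fun σ ρ h => congrArg φ (hF i hi σ ρ h)) (fun σ ρ h => congrArg ψ (hF j hj σ ρ h))
  mean _ _ := rfl

/-- The black sites. -/
def bset (e : V → ℂ) (σ : V → Bool) : Set ℂ := e '' {v | σ v = true}

theorem bset_inter {e : V → ℂ} {A : Set ℂ} {σ ρ : V → Bool}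
    (h : H953.Agree (e ⁻¹' A) σ ρ) : bset e ρ ∩ A = bset e σ ∩ A := by
  ext z
  constructor
  · rintro ⟨⟨v, hv, rfl⟩, hA⟩
    refine ⟨⟨v, ?_, rfl⟩, hA⟩
    have := h v hA
    simp only [Set.mem_ofPred_eq] at hv ⊢
    rw [← this]; exact hv
  · rintro ⟨⟨v, hv, rfl⟩, hA⟩
    refine ⟨⟨v, ?_, rfl⟩, hA⟩
    have := h v hA
    simp only [Set.mem_ofPred_eq] at hv ⊢
    rw [this]; exact hv

/-- The value of the cell `k` as a function of the colouring (`Θ k` the weight). -/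
noncomputable def cF (M : ℕ) (e : V → ℂ) (Θ : ℕ → Dt → ℂ) (k : ℕ) (σ : V → Bool) : ℂ :=
  H565.cellV M (Set.range e) (bset e σ) (Θ k) k

theorem cF_on (M : ℕ) (e : V → ℂ) (Θ : ℕ → Dt → ℂ) (k : ℕ) :
    On (e ⁻¹' Zk M k) (cF M e Θ k) := fun σ ρ h => by
  unfold cF
  exact H565.cellV_congr rfl (bset_inter h)

theorem touch_tk {M : ℕ} (hM : 0 < M) {e : V → ℂ} (hn : g.n = nc M)
    (hHB : ∀ k, g.HB k = e ⁻¹' HBx M k) (hCB : ∀ k, g.CB k = e ⁻¹' CBx M k) (k : ℕ) :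
    g.Touch (e ⁻¹' Zk M k) (tk M k) := by
  refine ⟨hn ▸ tk_sub M k, fun l hl hlt => ?_⟩
  rw [hn] at hl
  obtain ⟨h1, h2⟩ := disjoint_box hM hl hlt
  rw [hHB, hCB]
  exact ⟨h1.preimage e, h2.preimage e⟩

/-- **Quenched inputs for the comb**, up to the second moments. -/
theorem quen_comb {M : ℕ} (hM : 0 < M) {e : V → ℂ} (hn : g.n = nc M)
    (hHB : ∀ k, g.HB k = e ⁻¹' HBx M k) (hCB : ∀ k, g.CB k = e ⁻¹' CBx M k)
    {c : ℝ} (hc : 0 < c) (hH : ∀ k < g.n, c ≤ pr (g.He k))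
    (hC : ∀ k < g.n, c ≤ pr (g.Ce k)) {K : ℝ} {r : ℕ} (hr : 20 ≤ r) (Θ : ℕ → Dt → ℂ)
    (hK : ∀ k < nc M, (g.qe fun c₁ c₂ => ‖cF M e Θ k (g.w c₁ c₂)‖ ^ 2) ≤ K * ms M ^ 2) :
    H598.Quen M r K (gw g) (fun k p => cF M e Θ k (g.w p.1 p.2)) (fun k => qm g (cF M e Θ k)) :=
  quen_gl g hc hH hC r (cF M e Θ) (fun k => e ⁻¹' Zk M k) (tk M) (fun k _ => cF_on M e Θ k)
    (fun k _ => touch_tk g hM hn hHB hCB k)
    (fun i hi _ hj hij => (disjoint_Zk hM hi hj fun h => hij (near_mono hr i h)).preimage e)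
    (fun i hi _ hj hij => disjoint_tk hM hi hj fun h => hij (near_mono hr i h)) hK

end Vale.Agent.P148.R2.H504
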