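import Vale.Agent.P148.R2.H504.Quen
import Vale.Agent.P148.R2.H172.N3c
import Vale.Agent.P148.R2.H291.Good

/-!
# The local form of the quenched means

* `hubEv_loc`, `corEv_loc` : the events of the comb for two sets of points which agree (with their
  neighbour relations) on the boxes
* `mker M t k e Θ` : the local quenched mean of the value of the cell `k` (gates in `t`)
* `qm_eq_mker` : the quenched mean under `combLaw` is `mker` with `t = tk M k`
* `mker_window` : `mker` on all sites is `mker` on the sites of a window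
-/

namespace Vale.Agent.P148.R2.H504

open Finset N
open H953 (ex pr On Agree)
open H172 (GateLaw ex2 combLaw ExT)
open H938 (HBx CBx HubEv CorEv pc)
open H678 (inHub outHub hbox pin pout sd hb CBox CCr InGood OutGood hub core mix)
open H592 (nbr)
open H184 (Dt)
open Metric (ball closedBall)
open scoped Classical

/-! ### change of the set of points -/

section pts

variable {M l : ℕ} {X Y Bl Wh Bl' Wh' : Set ℂ}

/-- `X` and `Y` agree on `A`, and so do the neighbours of the points of `A`. -/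
structure NAgree (X Y A : Set ℂ) : Prop where
  pts : Y ∩ A = X ∩ A
  nb : ∀ u ∈ A, ∀ v, (nbr Y u v ↔ nbr X u v)

theorem NAgree.mono {A B : Set ℂ} (h : NAgree X Y A) (hB : B ⊆ A) : NAgree X Y B where
  pts := H938.inter_eq_of_sub h.pts hB
  nb u hu := h.nb u (hB hu)

theorem NAgree.symm {A : Set ℂ} (h : NAgree X Y A) : NAgree Y X A where
  pts := h.pts.symm
  nb u hu v := (h.nb u hu v).symm

theorem ball_sub_hbox (M : ℕ) (z : ℂ) : ball z (sd M) ⊆ hbox M z := by
  intro w hw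
  have h1 := H678.nsup_lt_of_ball hw
  have h2 : sd M ≤ hb M := by
    have := H938.sd_le_hb M
    have := H938.hb_nonneg M
    linarith
  exact (h1.trans_le h2).le

theorem hub_loc {z : ℂ} {C C' : Set ℂ} (h : NAgree X Y (hbox M z))
    (hC : C' ∩ hbox M z = C ∩ hbox M z)
    (hin : hub (nbr X) (X ∩ ball z (sd M)) C ⊆ hbox M z) :
    hub (nbr Y) (Y ∩ ball z (sd M)) C' = hub (nbr X) (X ∩ ball z (sd M)) C := by
  have h1 : Y ∩ ball z (sd M) = X ∩ ball z (sd M) :=
    H938.inter_eq_of_sub h.pts (ball_sub_hbox M z)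
  have h2 : hub (nbr Y) (X ∩ ball z (sd M)) C = hub (nbr X) (X ∩ ball z (sd M)) C :=
    H678.hub_congr_rel fun u hu v => h.nb u (hin (H678.core_sub_hub hu)) v
  rw [h1, ← h2]
  exact H678.hub_congr_of_sub (h2 ▸ hin) hC

theorem inGood_loc (h : NAgree X Y (hbox M (pin M l)))
    (hw : Wh' ∩ hbox M (pin M l) = Wh ∩ hbox M (pin M l)) :
    InGood M X Wh l ↔ InGood M Y Wh' l := by
  unfold InGood inHub
  constructor
  · intro H
    rw [hub_loc h hw H]
    exact H
  · intro H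
    rw [hub_loc h.symm hw.symm H]
    exact H

theorem outGood_loc (h : NAgree X Y (hbox M (pout M l)))
    (hw : Bl' ∩ hbox M (pout M l) = Bl ∩ hbox M (pout M l)) :
    OutGood M X Bl l ↔ OutGood M Y Bl' l := by
  unfold OutGood outHub
  constructor
  · intro H
    rw [hub_loc h hw H]
    exact H
  · intro H
    rw [hub_loc h.symm hw.symm H]
    exact H

theorem hubEv_loc (h : NAgree X Y (HBx M l)) (hb : Bl' ∩ HBx M l = Bl ∩ HBx M l)
    (hw : Wh' ∩ HBx M l = Wh ∩ HBx M l) : HubEv M X Bl Wh l ↔ HubEv M Y Bl' Wh' l :=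
  and_congr
    (inGood_loc (h.mono Set.subset_union_left) (H938.inter_eq_of_sub hw Set.subset_union_left))
    (outGood_loc (h.mono Set.subset_union_right) (H938.inter_eq_of_sub hb Set.subset_union_right))

theorem ccr_mp {z z' : ℂ} {W W' : Set ℂ} (h : NAgree X Y (CBox M z z'))
    (hW : W' ∩ CBox M z z' = W ∩ CBox M z z') (H : CCr M X W z z') : CCr M Y W' z z' := by
  obtain ⟨n, v, h1, h2, h3⟩ := H
  refine ⟨n, v, fun i hi => ?_, fun i hi => ⟨?_, (h2 i hi).2⟩, h3⟩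
  · exact (h.nb _ (h2 i hi.le).2 _).2 (h1 i hi)
  · exact (hW.symm ▸ (⟨(h2 i hi).1, (h2 i hi).2⟩ : v i ∈ W ∩ CBox M z z') :
      v i ∈ W' ∩ CBox M z z').1

theorem ccr_loc {z z' : ℂ} {W W' : Set ℂ} (h : NAgree X Y (CBox M z z'))
    (hW : W' ∩ CBox M z z' = W ∩ CBox M z z') : CCr M X W z z' ↔ CCr M Y W' z z' :=
  ⟨ccr_mp h hW, ccr_mp h.symm hW.symm⟩

theorem corEv_loc (h : NAgree X Y (CBx M l)) (hb : Bl' ∩ CBx M l = Bl ∩ CBx M l)
    (hw : Wh' ∩ CBx M l = Wh ∩ CBx M l) : CorEv M X Bl Wh l ↔ CorEv M Y Bl' Wh' l := by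
  have s1 : H938.VB M l ⊆ CBx M l := Set.subset_union_left.trans Set.subset_union_left
  have s2 : H938.RB M l ⊆ CBx M l := Set.subset_union_right.trans Set.subset_union_left
  have s3 : H938.LB M l ⊆ CBx M l := Set.subset_union_left.trans Set.subset_union_right
  have s4 : H938.UB M l ⊆ CBx M l := Set.subset_union_right.trans Set.subset_union_right
  exact and_congr
    (and_congr (ccr_loc (h.mono s1) (H938.inter_eq_of_sub hw s1))
      (ccr_loc (h.mono s2) (H938.inter_eq_of_sub hw s2)))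
    (and_congr (ccr_loc (h.mono s3) (H938.inter_eq_of_sub hb s3))
      (ccr_loc (h.mono s4) (H938.inter_eq_of_sub hw s4)))

/-- The explored points of good gates. -/
theorem ExT_loc {t : Finset ℕ} (h : ∀ l ∈ t, NAgree X Y (HBx M l))
    (hb : ∀ l ∈ t, Bl' ∩ HBx M l = Bl ∩ HBx M l) (hw : ∀ l ∈ t, Wh' ∩ HBx M l = Wh ∩ HBx M l)
    (hg : ∀ l ∈ t, HubEv M X Bl Wh l) : ExT M Y Bl' Wh' t = ExT M X Bl Wh t := by
  unfold ExT
  refine Set.iUnion₂_congr fun l hl => ?_
  congr 1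
  · exact hub_loc ((h l hl).mono Set.subset_union_left)
      (H938.inter_eq_of_sub (hw l hl) Set.subset_union_left) (hg l hl).1
  · exact hub_loc ((h l hl).mono Set.subset_union_right)
      (H938.inter_eq_of_sub (hb l hl) Set.subset_union_right) (hg l hl).2

end pts

/-! ### complex means -/

section exC

variable {V V' : Type*} [Fintype V] [Fintype V']

set_option linter.unusedSectionVars false

/-- Complex mean over two colourings. -/
noncomputable def ex2C (f : (V → Bool) → (V → Bool) → ℂ) : ℂ :=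
  ⟨ex2 fun c₁ c₂ => (f c₁ c₂).re, ex2 fun c₁ c₂ => (f c₁ c₂).im⟩

theorem ex2_congr {f f' : (V → Bool) → (V → Bool) → ℝ} (h : ∀ c₁ c₂, f c₁ c₂ = f' c₁ c₂) :
    ex2 f = ex2 f' := by
  unfold ex2
  exact H953.ex_congr fun c₁ => H953.ex_congr fun c₂ => h c₁ c₂

theorem ex2C_congr {f f' : (V → Bool) → (V → Bool) → ℂ} (h : ∀ c₁ c₂, f c₁ c₂ = f' c₁ c₂) :
    ex2C f = ex2C f' := by
  unfold ex2C
  congr 1
  · exact ex2_congr fun c₁ c₂ => by rw [h]
  · exact ex2_congr fun c₁ c₂ => by rw [h]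

theorem ex2_marg {ι : V' → V} (hι : Function.Injective ι)
    (f : (V' → Bool) → (V' → Bool) → ℝ) :
    (ex2 fun c₁ c₂ : V → Bool => f (c₁ ∘ ι) (c₂ ∘ ι)) = ex2 f := by
  unfold ex2
  have h1 : (fun c₁ : V → Bool => ex fun c₂ : V → Bool => f (c₁ ∘ ι) (c₂ ∘ ι)) =
      fun c₁ : V → Bool => (fun c : V' → Bool => ex fun c₂ : V' → Bool => f c c₂) (c₁ ∘ ι) := by
    funext c₁
    exact H172.ex_marg hι fun c₂ => f (c₁ ∘ ι) c₂
  rw [h1]
  exact H172.ex_marg hι fun c : V' → Bool => ex fun c₂ : V' → Bool => f c c₂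

theorem ex2C_marg {ι : V' → V} (hι : Function.Injective ι)
    (f : (V' → Bool) → (V' → Bool) → ℂ) :
    (ex2C fun c₁ c₂ : V → Bool => f (c₁ ∘ ι) (c₂ ∘ ι)) = ex2C f := by
  unfold ex2C
  congr 1
  · exact ex2_marg hι fun c₁ c₂ => (f c₁ c₂).re
  · exact ex2_marg hι fun c₁ c₂ => (f c₁ c₂).im

end exC

/-! ### the local mean -/

section mker

variable {V V' : Type*} [Fintype V] [Fintype V']

set_option linter.unusedSectionVars false

/-- The events of the gates in `t`. -/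
def evT (M : ℕ) (t : Finset ℕ) (Y : Set ℂ) (e : V → ℂ) (c₁ c₂ : V → Bool) : Prop :=
  ∀ l ∈ t, HubEv M Y (pc e true c₁) (pc e false c₁) l ∧
    CorEv M Y (pc e true c₂) (pc e false c₂) l

/-- The value of the cell for the composite colouring with the hubs of the gates in `t`. -/
noncomputable def valT (M : ℕ) (t : Finset ℕ) (k : ℕ) (e : V → ℂ) (Θ : Dt → ℂ)
    (c₁ c₂ : V → Bool) : ℂ :=
  H565.cellV M (Set.range e) (mix (ExT M (Set.range e) (pc e true c₁) (pc e false c₁) t)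
    (pc e true c₁) (pc e true c₂)) Θ k

/-- **The local quenched mean** of the value of the cell `k`, gates in `t`, sites `e`. -/
noncomputable def mker (M : ℕ) (t : Finset ℕ) (k : ℕ) (e : V → ℂ) (Θ : Dt → ℂ) : ℂ :=
  (ex2C fun c₁ c₂ => if evT M t (Set.range e) e c₁ c₂ then valT M t k e Θ c₁ c₂ else 0) /
    (((∏ l ∈ t, pr fun σ => HubEv M (Set.range e) (pc e true σ) (pc e false σ) l) *
      ∏ l ∈ t, pr fun σ => CorEv M (Set.range e) (pc e true σ) (pc e false σ) l : ℝ) : ℂ)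

theorem ex2C_ite (p : (V → Bool) → (V → Bool) → Prop) (f : (V → Bool) → (V → Bool) → ℂ) (d : ℝ) :
    (ex2C fun c₁ c₂ => if p c₁ c₂ then f c₁ c₂ else 0) / (d : ℂ) =
      ⟨(ex2 fun c₁ c₂ => if p c₁ c₂ then (f c₁ c₂).re else 0) / d,
        (ex2 fun c₁ c₂ => if p c₁ c₂ then (f c₁ c₂).im else 0) / d⟩ := by
  apply Complex.ext
  · rw [Complex.div_ofReal_re]
    congr 1
    unfold ex2C
    exact ex2_congr fun c₁ c₂ => by by_cases h : p c₁ c₂ <;> simp [h]
  · rw [Complex.div_ofReal_im]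
    congr 1
    unfold ex2C
    exact ex2_congr fun c₁ c₂ => by by_cases h : p c₁ c₂ <;> simp [h]

/-- The quenched mean under the law of the comb is local. -/
theorem qm_eq_mker {M : ℕ} (hM : 0 < M) {e : V → ℂ} (he : Function.Injective e) {c : ℝ}
    (hc : 0 < c) (hH : ∀ l < nc M, c ≤ pr ((combLaw hM (Set.range e) e).He l))
    (hC : ∀ l < nc M, c ≤ pr ((combLaw hM (Set.range e) e).Ce l)) (Θ : ℕ → Dt → ℂ) (k : ℕ) :
    qm (combLaw hM (Set.range e) e) (cF M e Θ k) = mker M (tk M k) k e (Θ k) := by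
  set g := combLaw hM (Set.range e) e with hg
  have htouch : g.Touch (e ⁻¹' Zk M k) (tk M k) :=
    touch_tk g hM rfl (fun _ => rfl) (fun _ => rfl) k
  have hval : ∀ c₁ c₂, cF M e Θ k (g.W (tk M k) c₁ c₂) = valT M (tk M k) k e (Θ k) c₁ c₂ := by
    intro c₁ c₂
    have := H172.pc_W e hM (Set.range e) he (tk M k) true c₁ c₂
    unfold cF valT
    rw [← this]
    rfl
  have hre : On (e ⁻¹' Zk M k) fun σ => (cF M e Θ k σ).re :=
    fun σ ρ h => congrArg Complex.re (cF_on M e Θ k σ ρ h)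
  have him : On (e ⁻¹' Zk M k) fun σ => (cF M e Θ k σ).im :=
    fun σ ρ h => congrArg Complex.im (cF_on M e Θ k σ ρ h)
  unfold mker
  rw [ex2C_ite]
  apply Complex.ext
  · rw [qm_re, g.qe_local' hc hH hC htouch (F := fun σ => (cF M e Θ k σ).re) hre]
    refine congrArg₂ (· / ·) (ex2_congr fun c₁ c₂ => ?_) rfl
    by_cases h : evT M (tk M k) (Set.range e) e c₁ c₂
    · rw [if_pos h, hval]
      exact if_pos h
    · rw [if_neg h]
      exact if_neg h
  · rw [qm_im, g.qe_local' hc hH hC htouch (F := fun σ => (cF M e Θ k σ).im) him]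
    refine congrArg₂ (· / ·) (ex2_congr fun c₁ c₂ => ?_) rfl
    by_cases h : evT M (tk M k) (Set.range e) e c₁ c₂
    · rw [if_pos h, hval]
      exact if_pos h
    · rw [if_neg h]
      exact if_neg h

theorem pc_comp {e : V → ℂ} {ι : V' → V} (c : Bool) (σ : V → Bool) {W : Set ℂ}
    (hW : ∀ v, e v ∈ W ↔ v ∈ Set.range ι) : pc (e ∘ ι) c (σ ∘ ι) = pc e c σ ∩ W := by
  ext z
  constructor
  · rintro ⟨v, hv, rfl⟩
    exact ⟨⟨ι v, hv, rfl⟩, (hW _).2 ⟨v, rfl⟩⟩
  · rintro ⟨⟨v, hv, rfl⟩, hz⟩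
    obtain ⟨u, rfl⟩ := (hW v).1 hz
    exact ⟨u, hv, rfl⟩

theorem range_comp' {e : V → ℂ} {ι : V' → V} {W : Set ℂ}
    (hW : ∀ v, e v ∈ W ↔ v ∈ Set.range ι) : Set.range (e ∘ ι) = Set.range e ∩ W := by
  ext z
  constructor
  · rintro ⟨v, rfl⟩
    exact ⟨⟨ι v, rfl⟩, (hW _).2 ⟨v, rfl⟩⟩
  · rintro ⟨⟨v, rfl⟩, hz⟩
    obtain ⟨u, rfl⟩ := (hW v).1 hz
    exact ⟨u, rfl⟩

theorem inter_inter_sub {A W B : Set ℂ} (h : B ⊆ W) : (A ∩ W) ∩ B = A ∩ B := by
  rw [Set.inter_assoc, Set.inter_eq_self_of_subset_right h]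

/-- **The local mean only sees the sites of the window.** `ι` is the inclusion of the sites of the
window `W`. -/
theorem mker_window {M : ℕ} {t : Finset ℕ} {k : ℕ} {e : V → ℂ} {ι : V' → V}
    (hι : Function.Injective ι) {W : Set ℂ} (hW : ∀ v, e v ∈ W ↔ v ∈ Set.range ι)
    (hH : ∀ l ∈ t, HBx M l ⊆ W) (hC : ∀ l ∈ t, CBx M l ⊆ W) (hZ : Zk M k ⊆ W)
    (hnH : ∀ l ∈ t, NAgree (Set.range e) (Set.range e ∩ W) (HBx M l))
    (hnC : ∀ l ∈ t, NAgree (Set.range e) (Set.range e ∩ W) (CBx M l)) (Θ : Dt → ℂ) :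
    mker M t k (e ∘ ι) Θ = mker M t k e Θ := by
  have hX := range_comp' hW
  have hub : ∀ (σ : V → Bool), ∀ l ∈ t,
      (HubEv M (Set.range (e ∘ ι)) (pc (e ∘ ι) true (σ ∘ ι)) (pc (e ∘ ι) false (σ ∘ ι)) l ↔
        HubEv M (Set.range e) (pc e true σ) (pc e false σ) l) := by
    intro σ l hl
    rw [hX, pc_comp true σ hW, pc_comp false σ hW]
    exact (hubEv_loc (hnH l hl) (inter_inter_sub (hH l hl)) (inter_inter_sub (hH l hl))).symm
  have cor : ∀ (σ : V → Bool), ∀ l ∈ t,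
      (CorEv M (Set.range (e ∘ ι)) (pc (e ∘ ι) true (σ ∘ ι)) (pc (e ∘ ι) false (σ ∘ ι)) l ↔
        CorEv M (Set.range e) (pc e true σ) (pc e false σ) l) := by
    intro σ l hl
    rw [hX, pc_comp true σ hW, pc_comp false σ hW]
    exact (corEv_loc (hnC l hl) (inter_inter_sub (hC l hl)) (inter_inter_sub (hC l hl))).symm
  have hev : ∀ c₁ c₂ : V → Bool, evT M t (Set.range (e ∘ ι)) (e ∘ ι) (c₁ ∘ ι) (c₂ ∘ ι) ↔
      evT M t (Set.range e) e c₁ c₂ := fun c₁ c₂ =>
    forall₂_congr fun l hl => and_congr (hub c₁ l hl) (cor c₂ l hl)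
  have hval : ∀ c₁ c₂ : V → Bool, evT M t (Set.range e) e c₁ c₂ →
      valT M t k (e ∘ ι) Θ (c₁ ∘ ι) (c₂ ∘ ι) = valT M t k e Θ c₁ c₂ := by
    intro c₁ c₂ h
    unfold valT
    rw [hX, pc_comp true c₁ hW, pc_comp false c₁ hW, pc_comp true c₂ hW]
    rw [ExT_loc (Y := Set.range e ∩ W) hnH (fun l hl => inter_inter_sub (hH l hl))
      (fun l hl => inter_inter_sub (hH l hl)) fun l hl => (h l hl).1]
    refine H565.cellV_congr (inter_inter_sub hZ) ?_
    ext z
    simp only [mix, Set.mem_inter_iff, Set.mem_union, Set.mem_sdiff]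
    constructor
    · rintro ⟨h1, h2⟩
      refine ⟨?_, h2⟩
      tauto
    · rintro ⟨h1, h2⟩
      have h3 : z ∈ W := hZ h2
      refine ⟨?_, h2⟩
      tauto
  unfold mker
  congr 1
  · rw [← ex2C_marg hι]
    refine ex2C_congr fun c₁ c₂ => ?_
    by_cases h : evT M t (Set.range e) e c₁ c₂
    · rw [if_pos h, if_pos ((hev c₁ c₂).2 h), hval c₁ c₂ h]
    · rw [if_neg h, if_neg fun h' => h ((hev c₁ c₂).1 h')]
  · congr 2
    · refine Finset.prod_congr rfl fun l hl => ?_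
      rw [← H172.pr_marg hι]
      exact H953.pr_congr fun σ => hub σ l hl
    · refine Finset.prod_congr rfl fun l hl => ?_
      rw [← H172.pr_marg hι]
      exact H953.pr_congr fun σ => cor σ l hl

end mker

end Vale.Agent.P148.R2.H504
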