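import Vale.Agent.P148.R2.H172.Tilt

/-!
# Congruent windows under a tilted product law

All gates take values in one space `X`, all sections in one space `Y`. A window is a pair of
injective maps `e : α → ι`, `d : β → κ` of index types such that every section of the window has
its gates in the window. The law of the window under the tilt is a density times a product measure,
so two windows with the same one-block data have the same law (`Tilt.map_window_eq`), hence
congruent pieces have the same mean.
-/

namespace Vale.Agent.P148.R2.H504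

open MeasureTheory ProbabilityTheory Set Function H172
open scoped ENNReal

section pi

variable {ι α : Type*} [Fintype ι] [Fintype α] {X : Type*} [MeasurableSpace X]
  (μ : ι → Measure X) [∀ i, IsProbabilityMeasure (μ i)]

/-- Restriction of a product measure to some coordinates. -/
theorem measurePreserving_comp {e : α → ι} (he : Injective e) :
    MeasurePreserving (fun (x : ι → X) (a : α) => x (e a)) (Measure.pi μ)
      (Measure.pi fun a => μ (e a)) := by
  classical
  have hm : Measurable (fun (x : ι → X) (a : α) => x (e a)) :=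
    measurable_pi_lambda _ fun a => measurable_pi_apply _
  refine ⟨hm, ?_⟩
  symm
  apply Measure.pi_eq
  intro s hs
  rw [Measure.map_apply hm (MeasurableSet.univ_pi hs)]
  have : (fun (x : ι → X) (a : α) => x (e a)) ⁻¹' (Set.univ.pi s) =
      Set.univ.pi (fun i => ⋂ (a : α) (_ : e a = i), s a) := by
    ext x
    simp only [Set.mem_preimage, Set.mem_pi, Set.mem_univ, true_implies, Set.mem_iInter]
    constructor
    · rintro h i a rfl
      exact h a
    · intro h a
      exact h (e a) a rfl
  rw [this, Measure.pi_pi]
  rw [← Finset.prod_subset (Finset.subset_univ (Finset.univ.image e))]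
  · rw [Finset.prod_image fun a _ b _ h => he h]
    apply Finset.prod_congr rfl
    intro a _
    congr 1
    ext z
    simp only [Set.mem_iInter]
    constructor
    · intro h
      exact h a rfl
    · intro h b hb
      rw [he hb]; exact h
  · intro i _ hi
    have : (⋂ (a : α) (_ : e a = i), s a) = Set.univ := by
      rw [Set.eq_univ_iff_forall]
      intro z
      simp only [Set.mem_iInter]
      intro a ha
      exact absurd (Finset.mem_image.2 ⟨a, Finset.mem_univ _, ha⟩) hi
    rw [this, measure_univ]

end pi

section tilt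

variable {ι κ α β : Type*} [Fintype ι] [Fintype κ] [DecidableEq ι] [DecidableEq κ]
  [Fintype α] [Fintype β]
  {X Y : Type*} [MeasurableSpace X] [MeasurableSpace Y]
  {μ : ι → Measure X} [∀ i, IsProbabilityMeasure (μ i)]
  {ν : κ → Measure Y} [∀ j, IsProbabilityMeasure (ν j)]

theorem loc_window {γ : Type*} [MeasurableSpace γ] {f : (α → X) → (β → Y) → γ}
    (hf : Measurable fun p : (α → X) × (β → Y) => f p.1 p.2) (e : α → ι) (d : β → κ) :
    Loc (X := fun _ => X) (Y := fun _ => Y) (Finset.univ.image e) (Finset.univ.image d)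
      (fun x y => f (fun a => x (e a)) (fun b => y (d b))) where
  meas := by
    have h1 : Measurable fun p : (ι → X) × (κ → Y) => (fun a => p.1 (e a), fun b => p.2 (d b)) :=
      ((measurable_pi_lambda _ fun a => measurable_pi_apply _).comp measurable_fst).prodMk
        ((measurable_pi_lambda _ fun a => measurable_pi_apply _).comp measurable_snd)
    exact hf.comp h1
  dx y x x' h := by
    have : (fun a => x (e a)) = fun a => x' (e a) := by
      funext a
      exact h (e a) (by simp)
    simp only [this]
  dy x y y' h := by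
    have : (fun a => y (d a)) = fun a => y' (d a) := by
      funext a
      exact h (d a) (by simp)
    simp only [this]

/-- The density of the window: `z` the gates, `u` the sections. `x₀` is irrelevant. -/
noncomputable def wdens (t : Tilt (X := fun _ : ι => X) (Y := fun _ : κ => Y) μ ν) (e : α → ι)
    (d : β → κ) (x₀ : ι → X) (z : α → X) (u : β → Y) : ℝ≥0∞ :=
  (∏ a, t.γ (e a) (z a)) * ∏ b, t.ε (d b) (Function.extend e z x₀) (u b)

theorem Tilt.E_window (t : Tilt (X := fun _ : ι => X) (Y := fun _ : κ => Y) μ ν) {e : α → ι}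
    {d : β → κ} (he : Injective e) (hd : Injective d)
    (hnb : ∀ b, t.nb (d b) ⊆ Finset.univ.image e) (x₀ : ι → X)
    {f : (α → X) → (β → Y) → ℝ≥0∞} (hf : Measurable fun p : (α → X) × (β → Y) => f p.1 p.2) :
    t.E (fun x y => f (fun a => x (e a)) (fun b => y (d b))) =
      ∫⁻ z, ∫⁻ u, wdens t e d x₀ z u * f z u ∂Measure.pi (fun b => ν (d b))
        ∂Measure.pi (fun a => μ (e a)) := by
  classical
  have mext : Measurable fun z : α → X => Function.extend e z x₀ := by
    apply measurable_pi_lambda
    intro i
    by_cases h : ∃ a, e a = i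
    · obtain ⟨a, rfl⟩ := h
      simp only [he.extend_apply]
      exact measurable_pi_apply a
    · simp only [Function.extend_apply' _ _ _ h]
      exact measurable_const
  have mε : Measurable fun p : (α → X) × (β → Y) =>
      ∏ b, t.ε (d b) (Function.extend e p.1 x₀) (p.2 b) :=
    Finset.measurable_prod _ fun b _ =>
      (t.mε (d b)).comp ((mext.comp measurable_fst).prodMk
        ((measurable_pi_apply b).comp measurable_snd))
  have mγ : Measurable fun z : α → X => ∏ a, t.γ (e a) (z a) :=
    Finset.measurable_prod _ fun a _ => (t.mγ (e a)).comp (measurable_pi_apply a)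
  rw [t.E_eq (loc_window hf e d) (by
    intro j hj
    obtain ⟨b, -, rfl⟩ := Finset.mem_image.1 hj
    exact hnb b)]
  have hεe : ∀ (x : ι → X) b y, t.ε (d b) x y =
      t.ε (d b) (Function.extend e (fun a => x (e a)) x₀) y := by
    intro x b y
    apply ap (t.dε (d b) y)
    intro i hi
    obtain ⟨a, -, rfl⟩ := Finset.mem_image.1 (hnb b (by exact_mod_cast hi))
    rw [he.extend_apply]
  have hin : ∀ x : ι → X,
      ∫⁻ y, (∏ j ∈ Finset.univ.image d, t.ε j x (y j)) *
        f (fun a => x (e a)) (fun b => y (d b)) ∂Measure.pi ν =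
      ∫⁻ u, (∏ b, t.ε (d b) (Function.extend e (fun a => x (e a)) x₀) (u b)) *
        f (fun a => x (e a)) u ∂Measure.pi (fun b => ν (d b)) := by
    intro x
    rw [← (measurePreserving_comp ν hd).lintegral_comp (f := fun u : β → Y =>
      (∏ b, t.ε (d b) (Function.extend e (fun a => x (e a)) x₀) (u b)) *
        f (fun a => x (e a)) u)
      ((mε.comp measurable_prodMk_left).mul (hf.comp measurable_prodMk_left))]
    apply lintegral_congr
    intro y
    rw [Finset.prod_image fun a _ b _ h => hd h]
    congr 1
    apply Finset.prod_congr rfl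
    intro b _
    exact hεe x b (y (d b))
  simp_rw [hin]
  have hG : Measurable fun z : α → X => (∏ a, t.γ (e a) (z a)) *
      ∫⁻ u, (∏ b, t.ε (d b) (Function.extend e z x₀) (u b)) * f z u
        ∂Measure.pi (fun b => ν (d b)) :=
    mγ.mul ((mε.mul hf).lintegral_prod_right')
  have h1 := (measurePreserving_comp μ he).lintegral_comp hG
  have h2 : ∫⁻ x, (∏ i ∈ Finset.univ.image e, t.γ i (x i)) *
      ∫⁻ u, (∏ b, t.ε (d b) (Function.extend e (fun a => x (e a)) x₀) (u b)) *
        f (fun a => x (e a)) u ∂Measure.pi (fun b => ν (d b)) ∂Measure.pi μ =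
      ∫⁻ z, (∏ a, t.γ (e a) (z a)) *
      ∫⁻ u, (∏ b, t.ε (d b) (Function.extend e z x₀) (u b)) * f z u
        ∂Measure.pi (fun b => ν (d b)) ∂Measure.pi (fun a => μ (e a)) := by
    rw [← h1]
    apply lintegral_congr
    intro x
    rw [Finset.prod_image fun a _ b _ h => he h]
  rw [h2]
  apply lintegral_congr
  intro z
  rw [← lintegral_const_mul _ (f := fun u =>
    (∏ b, t.ε (d b) (Function.extend e z x₀) (u b)) * f z u)
    ((mε.comp measurable_prodMk_left).mul (hf.comp measurable_prodMk_left))]
  apply lintegral_congr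
  intro u
  unfold wdens
  rw [mul_assoc]

/-- **Congruent windows have the same law.** -/
theorem Tilt.map_window_eq (t : Tilt (X := fun _ : ι => X) (Y := fun _ : κ => Y) μ ν)
    {e e' : α → ι} {d d' : β → κ} (he : Injective e) (hd : Injective d)
    (he' : Injective e') (hd' : Injective d')
    (hnb : ∀ b, t.nb (d b) ⊆ Finset.univ.image e) (hnb' : ∀ b, t.nb (d' b) ⊆ Finset.univ.image e')
    (hμ : ∀ a, μ (e a) = μ (e' a)) (hν : ∀ b, ν (d b) = ν (d' b))
    (hγ : ∀ a, t.γ (e a) = t.γ (e' a))
    (hε : ∀ x x' : ι → X, (∀ a, x (e a) = x' (e' a)) → ∀ b, t.ε (d b) x = t.ε (d' b) x') :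
    t.law.map (fun p => (fun a => p.1 (e a), fun b => p.2 (d b))) =
      t.law.map (fun p => ((fun a => p.1 (e' a), fun b => p.2 (d' b)) : (α → X) × (β → Y))) := by
  classical
  have hX : Nonempty (ι → X) := by
    have : ∀ i, Nonempty X := fun i => (μ i).nonempty_of_neZero
    exact ⟨fun i => (this i).some⟩
  obtain ⟨x₀⟩ := hX
  have hm : ∀ (e : α → ι) (d : β → κ), Measurable fun p : (ι → X) × (κ → Y) =>
      ((fun a => p.1 (e a), fun b => p.2 (d b)) : (α → X) × (β → Y)) := fun e d =>
    ((measurable_pi_lambda _ fun a => measurable_pi_apply _).comp measurable_fst).prodMk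
      ((measurable_pi_lambda _ fun a => measurable_pi_apply _).comp measurable_snd)
  ext s hs
  have key : ∀ (e : α → ι) (d : β → κ), Injective e → Injective d →
      (∀ b, t.nb (d b) ⊆ Finset.univ.image e) →
      t.law.map (fun p => ((fun a => p.1 (e a), fun b => p.2 (d b)) : (α → X) × (β → Y))) s =
      ∫⁻ z, ∫⁻ u, wdens t e d x₀ z u * s.indicator 1 (z, u) ∂Measure.pi (fun b => ν (d b))
        ∂Measure.pi (fun a => μ (e a)) := by
    intro e d he hd hnb
    have hf : Measurable fun p : (α → X) × (β → Y) =>
        s.indicator (1 : (α → X) × (β → Y) → ℝ≥0∞) (p.1, p.2) :=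
      measurable_one.indicator hs
    rw [← Tilt.E_window t he hd hnb x₀ (f := fun z u => s.indicator 1 (z, u)) hf,
      ← t.lintegral_law (hf.comp (hm e d)), Measure.map_apply (hm e d) hs,
      ← lintegral_indicator_one ((hm e d) hs)]
    rfl
  rw [key e d he hd hnb, key e' d' he' hd' hnb']
  have e1 : (Measure.pi fun a => μ (e a)) = Measure.pi fun a => μ (e' a) := by
    congr 1; funext a; exact hμ a
  have e2 : (Measure.pi fun b => ν (d b)) = Measure.pi fun b => ν (d' b) := by
    congr 1; funext a; exact hν a
  rw [e1, e2]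
  apply lintegral_congr
  intro z
  apply lintegral_congr
  intro u
  congr 1
  unfold wdens
  congr 1
  · apply Finset.prod_congr rfl
    intro a _
    rw [hγ a]
  · apply Finset.prod_congr rfl
    intro b _
    rw [hε _ (Function.extend e' z x₀) (fun a => by rw [he.extend_apply, he'.extend_apply]) b]

/-- Congruent windows: means of functions of the window. -/
theorem Tilt.integral_window_eq (t : Tilt (X := fun _ : ι => X) (Y := fun _ : κ => Y) μ ν)
    {e e' : α → ι} {d d' : β → κ} (he : Injective e) (hd : Injective d)
    (he' : Injective e') (hd' : Injective d')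
    (hnb : ∀ b, t.nb (d b) ⊆ Finset.univ.image e) (hnb' : ∀ b, t.nb (d' b) ⊆ Finset.univ.image e')
    (hμ : ∀ a, μ (e a) = μ (e' a)) (hν : ∀ b, ν (d b) = ν (d' b))
    (hγ : ∀ a, t.γ (e a) = t.γ (e' a))
    (hε : ∀ x x' : ι → X, (∀ a, x (e a) = x' (e' a)) → ∀ b, t.ε (d b) x = t.ε (d' b) x')
    {E : Type*} [NormedAddCommGroup E] [NormedSpace ℝ E] {F : (α → X) × (β → Y) → E}
    (hF : StronglyMeasurable F) :
    ∫ p, F (fun a => p.1 (e a), fun b => p.2 (d b)) ∂t.law =
      ∫ p, F (fun a => p.1 (e' a), fun b => p.2 (d' b)) ∂t.law := by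
  have hm : ∀ (e : α → ι) (d : β → κ), Measurable fun p : (ι → X) × (κ → Y) =>
      ((fun a => p.1 (e a), fun b => p.2 (d b)) : (α → X) × (β → Y)) := fun e d =>
    ((measurable_pi_lambda _ fun a => measurable_pi_apply _).comp measurable_fst).prodMk
      ((measurable_pi_lambda _ fun a => measurable_pi_apply _).comp measurable_snd)
  rw [← integral_map (hm e d).aemeasurable hF.aestronglyMeasurable,
    ← integral_map (hm e' d').aemeasurable hF.aestronglyMeasurable,
    Tilt.map_window_eq t he hd he' hd' hnb hnb' hμ hν hγ hε]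

end tilt

end Vale.Agent.P148.R2.H504
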