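import Vale.Agent.P148.R2.H953.Tool2
import Vale.Agent.P148.R2.H504.Fin

/-!
# The quenched law of the collar: product weights over disjoint regions

`I` finite, fair colourings `I → Bool`, weights `W k ≥ 0` of mean one, `W k` a function of the
colours in `U k`, the regions `U k` pairwise disjoint.

`qx f = ex (fun σ => (∏ k, W k σ) * f σ)`.

* `qx_local` : a function of the colours in `A` sees only the weights whose region meets `A`
* `qx_mul` : independence of functions of separated regions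
* `qx_le_pow` : `W k ≤ C` for `k ∈ S` : drop the weights in `S` at the cost `C ^ |S|`
* `wt`, `sum_wt`, `sum_wt_mul` : the weights as in `Fin.lean`; `ring_qx` : row N5, level 1
* two colourings : `qx2`
-/

namespace Vale.Agent.P148.R2.H504

open Finset N
open H953 (ex On Agree ex_mul_of_disjoint ex_congr ex_mono ex_nonneg ex_const)
open scoped Classical

variable {I κ : Type*} [Fintype I] [Fintype κ]

set_option linter.unusedSectionVars false

/-- Product weights over disjoint regions. -/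
structure PW (I κ : Type*) [Fintype I] [Fintype κ] where
  U : κ → Set I
  W : κ → (I → Bool) → ℝ
  disj : ∀ i j, i ≠ j → Disjoint (U i) (U j)
  on : ∀ k, On (U k) (W k)
  one : ∀ k, ex (W k) = 1
  nonneg : ∀ k σ, 0 ≤ W k σ

namespace PW

variable (w : PW I κ)

/-- The mean under the law with density `∏ k, W k`. -/
noncomputable def qx (f : (I → Bool) → ℝ) : ℝ := ex fun σ => (∏ k, w.W k σ) * f σ

theorem on_prod (S : Finset κ) : On (⋃ k ∈ S, w.U k) fun σ => ∏ k ∈ S, w.W k σ :=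
  H953.On.prod fun k _ => w.on k

theorem ex_prod_one (S : Finset κ) : (ex fun σ => ∏ k ∈ S, w.W k σ) = 1 := by
  rw [H953.ex_prod S (S := w.U) (fun i _ j _ h => w.disj i j h) fun k _ => w.on k]
  exact Finset.prod_eq_one fun k _ => w.one k

/-- Means with the weights in `S` only. -/
noncomputable def qs (S : Finset κ) (f : (I → Bool) → ℝ) : ℝ :=
  ex fun σ => (∏ k ∈ S, w.W k σ) * f σ

theorem qs_univ (f : (I → Bool) → ℝ) : w.qs univ f = w.qx f := rfl

theorem disj_union {A : Set I} {S T : Finset κ} (hST : Disjoint S T)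
    (hT : ∀ k ∈ T, Disjoint (w.U k) A) :
    Disjoint (A ∪ ⋃ k ∈ S, w.U k) (⋃ k ∈ T, w.U k) := by
  rw [Set.disjoint_union_left]
  constructor
  · rw [Set.disjoint_iUnion₂_right]
    intro k hk
    exact (hT k hk).symm
  · rw [Set.disjoint_iUnion₂_right]
    intro k hk
    rw [Set.disjoint_iUnion₂_left]
    intro l hl
    apply w.disj
    rintro rfl
    exact Finset.disjoint_left.1 hST hl hk

/-- Weights of regions which do not meet `A` drop. -/
theorem qs_union {A : Set I} {f : (I → Bool) → ℝ} (hf : On A f) {S T : Finset κ}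
    (hST : Disjoint S T) (hT : ∀ k ∈ T, Disjoint (w.U k) A) : w.qs (S ∪ T) f = w.qs S f := by
  unfold qs
  have h1 : (ex fun σ => (∏ k ∈ S ∪ T, w.W k σ) * f σ) =
      ex fun σ => ((∏ k ∈ S, w.W k σ) * f σ) * ∏ k ∈ T, w.W k σ := by
    apply ex_congr
    intro σ
    rw [Finset.prod_union hST]
    ring
  rw [h1, ex_mul_of_disjoint (S := A ∪ ⋃ k ∈ S, w.U k) (T := ⋃ k ∈ T, w.U k)
    (w.disj_union hST hT) _ (w.on_prod T), w.ex_prod_one, mul_one]
  intro σ ρ h
  change (∏ k ∈ S, w.W k ρ) * f ρ = (∏ k ∈ S, w.W k σ) * f σ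
  rw [hf σ ρ (h.mono Set.subset_union_left)]
  have := w.on_prod S σ ρ (h.mono Set.subset_union_right)
  simp only at this
  rw [this]

/-- Locality. -/
theorem qx_local {A : Set I} {f : (I → Bool) → ℝ} (hf : On A f) (S : Finset κ)
    (hS : ∀ k, k ∉ S → Disjoint (w.U k) A) : w.qx f = w.qs S f := by
  rw [← w.qs_univ, ← w.qs_union hf (S := S) (T := Sᶜ) disjoint_compl_right
    (fun k hk => hS k (Finset.mem_compl.1 hk)), Finset.union_compl]

theorem qx_const (c : ℝ) : w.qx (fun _ => c) = c := by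
  unfold qx
  rw [H953.ex_mul_const, w.ex_prod_one, one_mul]

theorem qx_nonneg {f : (I → Bool) → ℝ} (hf : ∀ σ, 0 ≤ f σ) : 0 ≤ w.qx f :=
  ex_nonneg fun σ => mul_nonneg (Finset.prod_nonneg fun k _ => w.nonneg k σ) (hf σ)

theorem qs_mono {S : Finset κ} {f g : (I → Bool) → ℝ} (h : ∀ σ, f σ ≤ g σ) :
    w.qs S f ≤ w.qs S g :=
  ex_mono fun σ => mul_le_mul_of_nonneg_left (h σ) (Finset.prod_nonneg fun k _ => w.nonneg k σ)

theorem qx_mono {f g : (I → Bool) → ℝ} (h : ∀ σ, f σ ≤ g σ) : w.qx f ≤ w.qx g :=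
  w.qs_mono h

/-- **Independence of functions of separated regions.** -/
theorem qx_mul {A B : Set I} {f g : (I → Bool) → ℝ} (hf : On A f) (hg : On B g)
    (hAB : Disjoint A B) (hU : ∀ k, Disjoint (w.U k) A ∨ Disjoint (w.U k) B) :
    w.qx (fun σ => f σ * g σ) = w.qx f * w.qx g := by
  set S : Finset κ := univ.filter fun k => ¬ Disjoint (w.U k) A with hS
  have hSA : ∀ k, k ∉ S → Disjoint (w.U k) A := by
    intro k hk
    by_contra h
    exact hk (Finset.mem_filter.2 ⟨Finset.mem_univ _, h⟩)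
  have hSB : ∀ k ∈ S, Disjoint (w.U k) B := by
    intro k hk
    rcases hU k with h | h
    · exact absurd h (Finset.mem_filter.1 hk).2
    · exact h
  rw [w.qx_local hf S hSA, w.qx_local hg Sᶜ (fun k hk => by
    rw [Finset.mem_compl, not_not] at hk
    exact hSB k hk)]
  unfold qx qs
  have h1 : (ex fun σ => (∏ k, w.W k σ) * (f σ * g σ)) =
      ex fun σ => ((∏ k ∈ S, w.W k σ) * f σ) * ((∏ k ∈ Sᶜ, w.W k σ) * g σ) := by
    apply ex_congr
    intro σ
    rw [← Finset.prod_mul_prod_compl S]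
    ring
  rw [h1]
  refine ex_mul_of_disjoint (S := A ∪ ⋃ k ∈ S, w.U k) (T := B ∪ ⋃ k ∈ Sᶜ, w.U k) ?_ ?_ ?_
  · rw [Set.disjoint_union_right]
    constructor
    · rw [Set.disjoint_union_left]
      refine ⟨hAB, ?_⟩
      rw [Set.disjoint_iUnion₂_left]
      exact hSB
    · exact w.disj_union disjoint_compl_right fun k hk => hSA k (Finset.mem_compl.1 hk)
  · intro σ ρ h
    change (∏ k ∈ S, w.W k ρ) * f ρ = (∏ k ∈ S, w.W k σ) * f σ
    rw [hf σ ρ (h.mono Set.subset_union_left)]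
    have := w.on_prod S σ ρ (h.mono Set.subset_union_right)
    simp only at this
    rw [this]
  · intro σ ρ h
    change (∏ k ∈ Sᶜ, w.W k ρ) * g ρ = (∏ k ∈ Sᶜ, w.W k σ) * g σ
    rw [hg σ ρ (h.mono Set.subset_union_left)]
    have := w.on_prod Sᶜ σ ρ (h.mono Set.subset_union_right)
    simp only at this
    rw [this]

/-- **Ratio bound.** -/
theorem qs_le_pow {f : (I → Bool) → ℝ} (hf : ∀ σ, 0 ≤ f σ) {S T : Finset κ}
    (hST : Disjoint S T) {C : ℝ} (hC : ∀ k ∈ S, ∀ σ, w.W k σ ≤ C) :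
    w.qs (S ∪ T) f ≤ C ^ S.card * w.qs T f := by
  unfold qs
  rw [← H953.ex_smul]
  apply ex_mono
  intro σ
  rw [Finset.prod_union hST, mul_assoc]
  apply mul_le_mul_of_nonneg_right
  · exact (Finset.prod_le_prod (fun k _ => w.nonneg k σ) fun k hk => hC k hk σ).trans_eq
      (Finset.prod_const C)
  · exact mul_nonneg (Finset.prod_nonneg fun k _ => w.nonneg k σ) (hf σ)

theorem qx_le_pow {f : (I → Bool) → ℝ} (hf : ∀ σ, 0 ≤ f σ) (S : Finset κ) {C : ℝ}
    (hC : ∀ k ∈ S, ∀ σ, w.W k σ ≤ C) : w.qx f ≤ C ^ S.card * w.qs Sᶜ f := by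
  have h := w.qs_le_pow hf (S := S) (T := Sᶜ) disjoint_compl_right hC
  rwa [Finset.union_compl] at h

/-- Local nonnegative function: only the regions which meet `A` cost. -/
theorem qx_le_pow_ex {A : Set I} {f : (I → Bool) → ℝ} (hA : On A f) (hf : ∀ σ, 0 ≤ f σ)
    (S : Finset κ) (hS : ∀ k, k ∉ S → Disjoint (w.U k) A) {C : ℝ}
    (hC : ∀ k ∈ S, ∀ σ, w.W k σ ≤ C) : w.qx f ≤ C ^ S.card * ex f := by
  rw [w.qx_local hA S hS]
  have h := w.qs_le_pow hf (S := S) (T := ∅) (Finset.disjoint_empty_right _) hC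
  rw [Finset.union_empty] at h
  refine h.trans (le_of_eq ?_)
  unfold qs
  simp

/-! ### the weights -/

/-- The probability weights of the law. -/
noncomputable def wt (σ : I → Bool) : ℝ := (∏ k, w.W k σ) / 2 ^ Fintype.card I

theorem wt_nonneg (σ : I → Bool) : 0 ≤ w.wt σ := by
  unfold wt
  have : 0 ≤ ∏ k, w.W k σ := Finset.prod_nonneg fun k _ => w.nonneg k σ
  positivity

theorem sum_wt_mul (f : (I → Bool) → ℝ) : ∑ σ, w.wt σ * f σ = w.qx f := by
  unfold wt qx ex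
  rw [Finset.sum_div]
  apply Finset.sum_congr rfl
  intro σ _
  ring

theorem sum_wt : ∑ σ, w.wt σ = 1 := by
  have := w.sum_wt_mul fun _ => 1
  rw [w.qx_const] at this
  simpa using this

/-- The mean of a complex function. -/
noncomputable def fm (f : (I → Bool) → ℂ) : ℂ := fmean w.wt f

/-- The explicit dominating function. -/
noncomputable def fd (n L : ℕ) (v : ℕ → (I → Bool) → ℂ) (σ : I → Bool) : ℝ := fdom w.wt n L v σ

theorem fd_nonneg (n L : ℕ) (v : ℕ → (I → Bool) → ℂ) (σ : I → Bool) : 0 ≤ w.fd n L v σ :=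
  fdom_nonneg _ _ _ _ _

/-- Combination of the two levels, surely. -/
theorem two_level_qx {M L : ℕ} (hL : nc M < 2 ^ L) (v : ℕ → (I → Bool) → ℂ) {c : ℂ} {G₂ : ℝ}
    (hG₂ : ∀ i ≤ nc M, ∀ j ≤ nc M,
      ‖arcSum (nc M) (fun k => w.fm (v k)) i j - c * (gateC M j - gateC M i)‖ ^ 2 ≤ G₂)
    (σ : I → Bool) {i j : ℕ} (hi : i ≤ nc M) (hj : j ≤ nc M) :
    ‖arcSum (nc M) (fun k => v k σ) i j - c * (gateC M j - gateC M i)‖ ^ 2 ≤
      2 * w.fd (nc M) L v σ + 2 * G₂ :=
  two_level (w := w.wt) hL v hG₂ σ hi hj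

/-- **Row N5, level 1, for the law `qx`**: `v k` is a function of the colours in `A k`; for distant
`i, j` the sets `A i`, `A j` are disjoint and no region meets both. -/
theorem ring_qx {M : ℕ} (hM : 0 < M) {v : ℕ → (I → Bool) → ℂ} {K : ℝ} (hK0 : 0 ≤ K) (r : ℕ)
    (hK : ∀ k < nc M, w.qx (fun σ => ‖v k σ‖ ^ 2) ≤ K * ms M ^ 2) (A : ℕ → Set I)
    (hv : ∀ k < nc M, On (A k) (v k))
    (hA : ∀ i < nc M, ∀ j < nc M, j ∉ near (nc M) r i → Disjoint (A i) (A j))
    (hU : ∀ i < nc M, ∀ j < nc M, j ∉ near (nc M) r i →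
      ∀ k, Disjoint (w.U k) (A i) ∨ Disjoint (w.U k) (A j)) :
    w.qx (w.fd (nc M) (Nat.log 2 (12 * M) + 1) v) ≤ err (K * (216 * (r + 1))) M := by
  unfold fd
  rw [← w.sum_wt_mul]
  refine ring_fin hM w.wt_nonneg w.sum_wt hK0 r (fun k hk => ?_) (fun i hi j hj hij φ ψ => ?_)
  · rw [w.sum_wt_mul]
    exact hK k hk
  · rw [w.sum_wt_mul fun σ => φ (v i σ) * ψ (v j σ), w.sum_wt_mul fun σ => φ (v i σ),
      w.sum_wt_mul fun σ => ψ (v j σ)]
    exact w.qx_mul (fun σ ρ h => congrArg φ (hv i hi σ ρ h))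
      (fun σ ρ h => congrArg ψ (hv j hj σ ρ h)) (hA i hi j hj hij) (hU i hi j hj hij)

end PW

/-! ### conditional law -/

/-- The law conditioned on local events. -/
noncomputable def PW.cond (U : κ → Set I) (E : κ → (I → Bool) → Prop)
    (disj : ∀ i j, i ≠ j → Disjoint (U i) (U j)) (on : ∀ k, On (U k) (E k))
    (pos : ∀ k, 0 < H953.pr (E k)) : PW I κ where
  U := U
  W k σ := (if E k σ then 1 else 0) / H953.pr (E k)
  disj := disj
  on k σ ρ h := by
    have := on k σ ρ h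
    simp only [this]
  one k := by
    have h : (fun σ => (if E k σ then (1 : ℝ) else 0) / H953.pr (E k)) =
        fun σ => (if E k σ then (1 : ℝ) else 0) * (H953.pr (E k))⁻¹ := by
      funext σ; rw [div_eq_mul_inv]
    rw [h, H953.ex_mul_const]
    exact mul_inv_cancel₀ (pos k).ne'
  nonneg k σ := by
    have := (pos k).le
    split_ifs <;> positivity

theorem PW.cond_le {U : κ → Set I} {E : κ → (I → Bool) → Prop}
    {disj : ∀ i j, i ≠ j → Disjoint (U i) (U j)} {on : ∀ k, On (U k) (E k)}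
    {pos : ∀ k, 0 < H953.pr (E k)} {k : κ} {c : ℝ} (hc : 0 < c) (h : c ≤ H953.pr (E k))
    (σ : I → Bool) : (PW.cond U E disj on pos).W k σ ≤ c⁻¹ := by
  change (if E k σ then (1 : ℝ) else 0) / H953.pr (E k) ≤ c⁻¹
  split_ifs
  · rw [one_div]
    exact inv_anti₀ hc h
  · rw [zero_div]
    positivity

/-! ### two colourings -/

section two

variable {V : Type*} [Fintype V]

/-- Pairs of colourings of `V` are colourings of `V ⊕ V`. -/
theorem ex_sum_elim (F : (V → Bool) → (V → Bool) → ℝ) :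
    (ex fun σ : V ⊕ V → Bool => F (fun v => σ (Sum.inl v)) (fun v => σ (Sum.inr v))) =
      ex fun c₁ => ex fun c₂ => F c₁ c₂ := by
  have h1 : ∑ σ : V ⊕ V → Bool, F (fun v => σ (Sum.inl v)) (fun v => σ (Sum.inr v)) =
      ∑ c₁ : V → Bool, ∑ c₂ : V → Bool, F c₁ c₂ := by
    rw [← Fintype.sum_prod_type' (f := F)]
    exact Fintype.sum_equiv (Equiv.sumArrowEquivProdArrow V V Bool) _ _ fun _ => rfl
  unfold ex
  rw [← Finset.sum_div, div_div, ← pow_add, ← Fintype.card_sum]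
  congr 1
  rw [← h1]
  exact Finset.sum_congr (Finset.ext fun _ => by simp only [Finset.mem_univ]) fun _ _ => rfl

theorem on_inl {A : Set V} {β : Sort*} {f : (V → Bool) → β} (h : On A f) :
    On (Sum.inl '' A : Set (V ⊕ V)) fun σ : V ⊕ V → Bool => f fun v => σ (Sum.inl v) :=
  fun σ ρ hr => h (fun v => σ (Sum.inl v)) (fun v => ρ (Sum.inl v)) fun v hv =>
    hr (Sum.inl v) ⟨v, hv, rfl⟩

theorem on_inr {A : Set V} {β : Sort*} {f : (V → Bool) → β} (h : On A f) :
    On (Sum.inr '' A : Set (V ⊕ V)) fun σ : V ⊕ V → Bool => f fun v => σ (Sum.inr v) :=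
  fun σ ρ hr => h (fun v => σ (Sum.inr v)) (fun v => ρ (Sum.inr v)) fun v hv =>
    hr (Sum.inr v) ⟨v, hv, rfl⟩

/-- `F` is a function of the two colourings on `A`. -/
def On2 {β : Sort*} (A : Set V) (F : (V → Bool) → (V → Bool) → β) : Prop :=
  ∀ c₁ c₁' c₂ c₂', Agree A c₁ c₁' → Agree A c₂ c₂' → F c₁' c₂' = F c₁ c₂

theorem On2.on {β : Sort*} {A : Set V} {F : (V → Bool) → (V → Bool) → β} (h : On2 A F) :
    On (Sum.inl '' A ∪ Sum.inr '' A : Set (V ⊕ V)) fun σ : V ⊕ V → Bool =>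
      F (fun v => σ (Sum.inl v)) (fun v => σ (Sum.inr v)) := by
  intro σ ρ hr
  exact h _ _ _ _ (fun v hv => hr (Sum.inl v) (Or.inl ⟨v, hv, rfl⟩))
    (fun v hv => hr (Sum.inr v) (Or.inr ⟨v, hv, rfl⟩))

theorem disjoint_two {A B : Set V} (h : Disjoint A B) :
    Disjoint (Sum.inl '' A ∪ Sum.inr '' A : Set (V ⊕ V)) (Sum.inl '' B ∪ Sum.inr '' B) := by
  rw [Set.disjoint_left] at h ⊢
  rintro x (⟨v, hv, rfl⟩ | ⟨v, hv, rfl⟩) (⟨u, hu, e⟩ | ⟨u, hu, e⟩)
  · rw [Sum.inl.injEq] at e; subst e; exact h hv hu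
  · exact absurd e (by simp)
  · exact absurd e (by simp)
  · rw [Sum.inr.injEq] at e; subst e; exact h hv hu

variable {κ' : Type*} [Fintype κ']

/-- Weights `w` for the first colouring and `w'` for the second one. -/
noncomputable def PW.sum (w : PW V κ) (w' : PW V κ') : PW (V ⊕ V) (κ ⊕ κ') where
  U := Sum.elim (fun k => Sum.inl '' w.U k) (fun k => Sum.inr '' w'.U k)
  W := Sum.elim (fun k σ => w.W k fun v => σ (Sum.inl v)) (fun k σ => w'.W k fun v => σ (Sum.inr v))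
  disj := by
    rintro (i | i) (j | j) hij
    · simp only [Sum.elim_inl]
      rw [Set.disjoint_image_iff Sum.inl_injective]
      exact w.disj i j fun h => hij (by rw [h])
    · simp only [Sum.elim_inl, Sum.elim_inr]
      rw [Set.disjoint_left]
      rintro x ⟨v, -, rfl⟩ ⟨u, -, e⟩
      exact absurd e (by simp)
    · simp only [Sum.elim_inl, Sum.elim_inr]
      rw [Set.disjoint_left]
      rintro x ⟨v, -, rfl⟩ ⟨u, -, e⟩
      exact absurd e (by simp)
    · simp only [Sum.elim_inr]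
      rw [Set.disjoint_image_iff Sum.inr_injective]
      exact w'.disj i j fun h => hij (by rw [h])
  on := by
    rintro (k | k)
    · exact on_inl (w.on k)
    · exact on_inr (w'.on k)
  one := by
    rintro (k | k)
    · refine (ex_sum_elim fun c₁ _ => w.W k c₁).trans ?_
      simp only [ex_const]
      exact w.one k
    · refine (ex_sum_elim fun _ c₂ => w'.W k c₂).trans ?_
      simp only [w'.one k, ex_const]
  nonneg := by
    rintro (k | k) σ
    · exact w.nonneg k _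
    · exact w'.nonneg k _

theorem PW.sum_qx (w : PW V κ) (w' : PW V κ') (F : (V → Bool) → (V → Bool) → ℝ) :
    (w.sum w').qx (fun σ => F (fun v => σ (Sum.inl v)) fun v => σ (Sum.inr v)) =
      ex fun c₁ => ex fun c₂ => (∏ k, w.W k c₁) * (∏ k, w'.W k c₂) * F c₁ c₂ := by
  rw [← ex_sum_elim]
  unfold PW.qx
  apply ex_congr
  intro σ
  congr 1
  rw [Fintype.prod_sum_type]
  rfl

/-- The law of the pair of colourings. -/
noncomputable def PW.q2 (w : PW V κ) (w' : PW V κ') (F : (V → Bool) → (V → Bool) → ℝ) : ℝ :=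
  ex fun c₁ => ex fun c₂ => (∏ k, w.W k c₁) * (∏ k, w'.W k c₂) * F c₁ c₂

/-- Independence for the pair of colourings. -/
theorem PW.q2_mul (w : PW V κ) (w' : PW V κ') {A B : Set V}
    {F G : (V → Bool) → (V → Bool) → ℝ} (hF : On2 A F) (hG : On2 B G) (hAB : Disjoint A B)
    (hU : ∀ k, Disjoint (w.U k) A ∨ Disjoint (w.U k) B)
    (hU' : ∀ k, Disjoint (w'.U k) A ∨ Disjoint (w'.U k) B) :
    w.q2 w' (fun c₁ c₂ => F c₁ c₂ * G c₁ c₂) = w.q2 w' F * w.q2 w' G := by
  unfold PW.q2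
  rw [← PW.sum_qx w w' F, ← PW.sum_qx w w' G, ← PW.sum_qx w w' fun c₁ c₂ => F c₁ c₂ * G c₁ c₂]
  have hl : ∀ {C D : Set V}, Disjoint C D →
      Disjoint (Sum.inl '' C : Set (V ⊕ V)) (Sum.inl '' D ∪ Sum.inr '' D) := by
    intro C D h
    exact (disjoint_two h).mono_left Set.subset_union_left
  have hr : ∀ {C D : Set V}, Disjoint C D →
      Disjoint (Sum.inr '' C : Set (V ⊕ V)) (Sum.inl '' D ∪ Sum.inr '' D) := by
    intro C D h
    exact (disjoint_two h).mono_left Set.subset_union_right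
  refine (w.sum w').qx_mul hF.on hG.on (disjoint_two hAB) ?_
  rintro (k | k)
  · exact (hU k).imp hl hl
  · exact (hU' k).imp hr hr

/-- A function of two colourings as a function of one colouring of `V ⊕ V`. -/
def up {β : Sort*} (F : (V → Bool) → (V → Bool) → β) (σ : V ⊕ V → Bool) : β :=
  F (fun v => σ (Sum.inl v)) fun v => σ (Sum.inr v)

theorem up_elim {β : Sort*} (F : (V → Bool) → (V → Bool) → β) (c₁ c₂ : V → Bool) :
    up F (Sum.elim c₁ c₂) = F c₁ c₂ := rfl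

/-- The explicit dominating function for the pair of colourings. -/
noncomputable def PW.dom2 (w : PW V κ) (w' : PW V κ') (n L : ℕ)
    (v : ℕ → (V → Bool) → (V → Bool) → ℂ) (c₁ c₂ : V → Bool) : ℝ :=
  (w.sum w').fd n L (fun k => up (v k)) (Sum.elim c₁ c₂)

/-- The mean of a complex function of the pair of colourings. -/
noncomputable def PW.mean2 (w : PW V κ) (w' : PW V κ') (v : (V → Bool) → (V → Bool) → ℂ) : ℂ :=
  (w.sum w').fm (up v)

theorem PW.dom2_nonneg (w : PW V κ) (w' : PW V κ') (n L : ℕ)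
    (v : ℕ → (V → Bool) → (V → Bool) → ℂ) (c₁ c₂ : V → Bool) : 0 ≤ w.dom2 w' n L v c₁ c₂ :=
  PW.fd_nonneg _ _ _ _ _

theorem PW.up_dom2 (w : PW V κ) (w' : PW V κ') (n L : ℕ)
    (v : ℕ → (V → Bool) → (V → Bool) → ℂ) (σ : V ⊕ V → Bool) :
    up (w.dom2 w' n L v) σ = (w.sum w').fd n L (fun k => up (v k)) σ := by
  unfold up PW.dom2
  congr 1
  funext x
  rcases x with x | x
  · rw [Sum.elim_inl]
  · rw [Sum.elim_inr]

theorem PW.q2_up (w : PW V κ) (w' : PW V κ') (F : (V → Bool) → (V → Bool) → ℝ) :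
    w.q2 w' F = (w.sum w').qx (up F) := (PW.sum_qx w w' F).symm

theorem PW.q2_dom2 (w : PW V κ) (w' : PW V κ') (n L : ℕ)
    (v : ℕ → (V → Bool) → (V → Bool) → ℂ) :
    w.q2 w' (w.dom2 w' n L v) = (w.sum w').qx ((w.sum w').fd n L fun k => up (v k)) := by
  rw [PW.q2_up]
  exact congrArg _ (funext fun σ => w.up_dom2 w' n L v σ)

/-- **Row N5, level 1, two colourings.** -/
theorem PW.ring_q2 (w : PW V κ) (w' : PW V κ') {M : ℕ} (hM : 0 < M)
    {v : ℕ → (V → Bool) → (V → Bool) → ℂ} {K : ℝ} (hK0 : 0 ≤ K) (r : ℕ)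
    (hK : ∀ k < nc M, w.q2 w' (fun c₁ c₂ => ‖v k c₁ c₂‖ ^ 2) ≤ K * ms M ^ 2) (A : ℕ → Set V)
    (hv : ∀ k < nc M, On2 (A k) (v k))
    (hA : ∀ i < nc M, ∀ j < nc M, j ∉ near (nc M) r i → Disjoint (A i) (A j))
    (hU : ∀ i < nc M, ∀ j < nc M, j ∉ near (nc M) r i →
      ∀ k, Disjoint (w.U k) (A i) ∨ Disjoint (w.U k) (A j))
    (hU' : ∀ i < nc M, ∀ j < nc M, j ∉ near (nc M) r i →
      ∀ k, Disjoint (w'.U k) (A i) ∨ Disjoint (w'.U k) (A j)) :
    w.q2 w' (w.dom2 w' (nc M) (Nat.log 2 (12 * M) + 1) v) ≤ err (K * (216 * (r + 1))) M := by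
  have hl : ∀ {C D : Set V}, Disjoint C D →
      Disjoint (Sum.inl '' C : Set (V ⊕ V)) (Sum.inl '' D ∪ Sum.inr '' D) := by
    intro C D h
    exact (disjoint_two h).mono_left Set.subset_union_left
  have hr : ∀ {C D : Set V}, Disjoint C D →
      Disjoint (Sum.inr '' C : Set (V ⊕ V)) (Sum.inl '' D ∪ Sum.inr '' D) := by
    intro C D h
    exact (disjoint_two h).mono_left Set.subset_union_right
  have hK' : ∀ k < nc M, (w.sum w').qx (fun σ => ‖up (v k) σ‖ ^ 2) ≤ K * ms M ^ 2 := by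
    intro k hk
    refine le_trans (le_of_eq ?_) (hK k hk)
    exact (w.q2_up w' fun c₁ c₂ => ‖v k c₁ c₂‖ ^ 2).symm
  have hUU : ∀ i < nc M, ∀ j < nc M, j ∉ near (nc M) r i → ∀ k,
      Disjoint ((w.sum w').U k) (Sum.inl '' A i ∪ Sum.inr '' A i) ∨
      Disjoint ((w.sum w').U k) (Sum.inl '' A j ∪ Sum.inr '' A j) := by
    rintro i hi j hj hij (k | k)
    · exact (hU i hi j hj hij k).imp hl hl
    · exact (hU' i hi j hj hij k).imp hr hr
  have hvv : ∀ k < nc M, On (Sum.inl '' A k ∪ Sum.inr '' A k : Set (V ⊕ V)) (up (v k)) :=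
    fun k hk => (hv k hk).on
  have hAA : ∀ i < nc M, ∀ j < nc M, j ∉ near (nc M) r i →
      Disjoint (Sum.inl '' A i ∪ Sum.inr '' A i : Set (V ⊕ V)) (Sum.inl '' A j ∪ Sum.inr '' A j) :=
    fun i hi j hj hij => disjoint_two (hA i hi j hj hij)
  rw [PW.q2_dom2]
  exact (w.sum w').ring_qx hM hK0 r hK' (fun k => Sum.inl '' A k ∪ Sum.inr '' A k) hvv hAA hUU

/-- Combination of the two levels for the pair of colourings, surely. -/
theorem PW.two_level2 (w : PW V κ) (w' : PW V κ') {M L : ℕ} (hL : nc M < 2 ^ L)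
    (v : ℕ → (V → Bool) → (V → Bool) → ℂ) {c : ℂ} {G₂ : ℝ}
    (hG₂ : ∀ i ≤ nc M, ∀ j ≤ nc M,
      ‖arcSum (nc M) (fun k => w.mean2 w' (v k)) i j - c * (gateC M j - gateC M i)‖ ^ 2 ≤ G₂)
    (c₁ c₂ : V → Bool) {i j : ℕ} (hi : i ≤ nc M) (hj : j ≤ nc M) :
    ‖arcSum (nc M) (fun k => v k c₁ c₂) i j - c * (gateC M j - gateC M i)‖ ^ 2 ≤
      2 * w.dom2 w' (nc M) L v c₁ c₂ + 2 * G₂ :=
  (w.sum w').two_level_qx hL (fun k => up (v k)) hG₂ (Sum.elim c₁ c₂) hi hj

/-- Ratio bound for the pair of colourings: a nonnegative function of the colours in `A`. -/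
theorem PW.q2_le_pow (w : PW V κ) (w' : PW V κ') {A : Set V} {F : (V → Bool) → (V → Bool) → ℝ}
    (hF : On2 A F) (h0 : ∀ c₁ c₂, 0 ≤ F c₁ c₂) (S : Finset κ) (S' : Finset κ')
    (hS : ∀ k, k ∉ S → Disjoint (w.U k) A) (hS' : ∀ k, k ∉ S' → Disjoint (w'.U k) A) {C : ℝ}
    (hC : ∀ k ∈ S, ∀ σ, w.W k σ ≤ C) (hC' : ∀ k ∈ S', ∀ σ, w'.W k σ ≤ C) :
    w.q2 w' F ≤ C ^ (S.card + S'.card) * ex fun c₁ => ex fun c₂ => F c₁ c₂ := by
  unfold PW.q2
  rw [← PW.sum_qx w w' F, ← ex_sum_elim]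
  have h := (w.sum w').qx_le_pow_ex (A := Sum.inl '' A ∪ Sum.inr '' A)
    (f := fun σ => F (fun v => σ (Sum.inl v)) fun v => σ (Sum.inr v)) hF.on (fun _ => h0 _ _)
    (S.disjSum S') (by
      rintro (k | k) hk
      · rw [Finset.inl_mem_disjSum] at hk
        have := hS k hk
        rw [Set.disjoint_left] at this ⊢
        rintro x ⟨v, hv, rfl⟩ (⟨u, hu, e⟩ | ⟨u, hu, e⟩)
        · rw [Sum.inl.injEq] at e; subst e; exact this hv hu
        · exact absurd e (by simp)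
      · rw [Finset.inr_mem_disjSum] at hk
        have := hS' k hk
        rw [Set.disjoint_left] at this ⊢
        rintro x ⟨v, hv, rfl⟩ (⟨u, hu, e⟩ | ⟨u, hu, e⟩)
        · exact absurd e (by simp)
        · rw [Sum.inr.injEq] at e; subst e; exact this hv hu)
    (C := C) (by
      rintro (k | k) hk σ
      · rw [Finset.inl_mem_disjSum] at hk
        exact hC k hk _
      · rw [Finset.inr_mem_disjSum] at hk
        exact hC' k hk _)
  rw [Finset.card_disjSum] at h
  exact h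

end two

end Vale.Agent.P148.R2.H504
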