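import Vale.Agent.P148.R2.H504.Max

/-!
# Row N5: the law of large numbers for the partial sums of the pieces

Abstract form (any probability space): pieces `v k`, `k < n`, independent off a graph of degree
`d`, second moments at most `K`, means `c * D k` except for at most `q` indices (corners) where the
error is at most `B`. Gates `g k`, `g (k + 1) = g k + D k`.
-/

namespace Vale.Agent.P148.R2.H504

open MeasureTheory ProbabilityTheory Finset Filter Topology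
open scoped ComplexConjugate ENNReal

/-- Error of the means over an initial interval. -/
theorem norm_mean_err_le {n : ℕ} (e : ℕ → ℂ) (Cor : Finset ℕ) {B : ℝ}
    (h0 : ∀ k < n, k ∉ Cor → e k = 0) (h1 : ∀ k < n, k ∈ Cor → ‖e k‖ ≤ B) (hB : 0 ≤ B) {j : ℕ}
    (hj : j ≤ n) : ‖∑ k ∈ range j, e k‖ ≤ Cor.card * B := by
  classical
  have h2 : ∑ k ∈ range j, e k = ∑ k ∈ (range j).filter (· ∈ Cor), e k := by
    rw [Finset.sum_filter]
    apply Finset.sum_congr rfl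
    intro k hk
    rw [Finset.mem_range] at hk
    by_cases h : k ∈ Cor
    · simp [h]
    · simp [h, h0 k (by omega) h]
  rw [h2]
  calc _ ≤ ∑ k ∈ (range j).filter (· ∈ Cor), ‖e k‖ := _root_.norm_sum_le _ _
    _ ≤ ∑ _k ∈ (range j).filter (· ∈ Cor), B := by
        apply Finset.sum_le_sum
        intro k hk
        rw [Finset.mem_filter, Finset.mem_range] at hk
        exact h1 k (by omega) hk.2
    _ = ((range j).filter (· ∈ Cor)).card * B := by rw [Finset.sum_const, nsmul_eq_mul]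
    _ ≤ Cor.card * B := by
        apply mul_le_mul_of_nonneg_right _ hB
        exact_mod_cast Finset.card_le_card fun k hk => (Finset.mem_filter.1 hk).2

section prob

variable {Ω : Type*} [MeasurableSpace Ω] {P : Measure Ω} [IsProbabilityMeasure P]

/-- **LLN for the partial sums**, with a dominating function. `m = 0` : intervals `[i, j)`
(with sign), `m = n` : cyclic intervals. -/
theorem lln {n L : ℕ} (hn : n < 2 ^ L) {v : ℕ → Ω → ℂ} {K : ℝ} (N : ℕ → Finset ℕ) (d : ℕ)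
    (hd : ∀ i < n, (N i).card ≤ d) (h2 : ∀ k < n, MemLp (v k) 2 P)
    (hK0 : 0 ≤ K) (hK : ∀ k < n, ∫ ω, ‖v k ω‖ ^ 2 ∂P ≤ K)
    (hind : ∀ i < n, ∀ j < n, j ∉ N i → IndepFun (v i) (v j) P)
    (g D : ℕ → ℂ) (hg : ∀ k < n, g (k + 1) = g k + D k) (c : ℂ) (Cor : Finset ℕ) {B : ℝ}
    (hB : 0 ≤ B) (hmean : ∀ k < n, k ∉ Cor → ∫ ω, v k ω ∂P = c * D k)
    (hcor : ∀ k < n, k ∈ Cor → ‖∫ ω, v k ω ∂P - c * D k‖ ≤ B) :
    ∃ G : Ω → ℝ, (∀ ω, 0 ≤ G ω) ∧ Integrable G P ∧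
      ∫ ω, G ω ∂P ≤ 18 * L ^ 2 * (d * n * K) + 18 * (Cor.card * B) ^ 2 ∧
      ∀ ω, ∀ i ≤ n, ∀ j ≤ n, ∀ m ≤ n,
        ‖(∑ k ∈ range j, v k ω) - (∑ k ∈ range i, v k ω) + (∑ k ∈ range m, v k ω) -
          c * (g j - g i + (g m - g 0))‖ ^ 2 ≤ G ω := by
  obtain ⟨G, G0, G1, G2, G3⟩ := exists_dom hn N d hd h2 hK0 hK hind
  have hgs : ∀ j ≤ n, ∑ k ∈ range j, D k = g j - g 0 := by
    intro j hj
    induction j with
    | zero => simp
    | succ j ih =>
      rw [Finset.sum_range_succ, ih (by omega), hg j (by omega)]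
      ring
  set e : ℕ → ℂ := fun k => ∫ ω, v k ω ∂P - c * D k with he
  have herr : ∀ j ≤ n, ‖∑ k ∈ range j, e k‖ ≤ Cor.card * B := by
    intro j hj
    apply norm_mean_err_le (n := n) e Cor _ _ hB hj
    · intro k hk hkc
      rw [he]; simp only; rw [hmean k hk hkc, sub_self]
    · intro k hk hkc
      exact hcor k hk hkc
  set b : ℝ := Cor.card * B with hb
  have hsum : ∀ ω, ∀ j ≤ n, ∑ k ∈ range j, v k ω =
      (∑ k ∈ range j, (v k ω - ∫ ω', v k ω' ∂P)) + (∑ k ∈ range j, e k) + c * (g j - g 0) := by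
    intro ω j hj
    rw [← hgs j hj, Finset.mul_sum, ← Finset.sum_add_distrib, ← Finset.sum_add_distrib]
    apply Finset.sum_congr rfl
    intro k _
    simp only [he]; ring
  refine ⟨fun ω => 2 * G ω + 2 * (3 * b) ^ 2, ?_, ?_, ?_, ?_⟩
  · intro ω; have := G0 ω; positivity
  · exact (G1.const_mul 2).add (integrable_const _)
  · rw [integral_add (G1.const_mul 2) (integrable_const _), integral_const_mul]
    simp only [integral_const, probReal_univ, smul_eq_mul, one_mul]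
    nlinarith [G2]
  · intro ω i hi j hj m hm
    have h3 := G3 ω i hi j hj m hm
    rw [hsum ω j hj, hsum ω i hi, hsum ω m hm]
    set A := (∑ k ∈ range j, (v k ω - ∫ ω', v k ω' ∂P)) -
      (∑ k ∈ range i, (v k ω - ∫ ω', v k ω' ∂P)) +
      ∑ k ∈ range m, (v k ω - ∫ ω', v k ω' ∂P) with hA
    set E := (∑ k ∈ range j, e k) - (∑ k ∈ range i, e k) + ∑ k ∈ range m, e k with hE
    have heq : (∑ k ∈ range j, (v k ω - ∫ ω', v k ω' ∂P)) + (∑ k ∈ range j, e k) +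
          c * (g j - g 0) -
        ((∑ k ∈ range i, (v k ω - ∫ ω', v k ω' ∂P)) + (∑ k ∈ range i, e k) + c * (g i - g 0)) +
        ((∑ k ∈ range m, (v k ω - ∫ ω', v k ω' ∂P)) + (∑ k ∈ range m, e k) + c * (g m - g 0)) -
        c * (g j - g i + (g m - g 0)) = A + E := by
      rw [hA, hE]; ring
    rw [heq]
    have hE1 : ‖E‖ ≤ 3 * b := by
      have a1 := norm_add_le ((∑ k ∈ range j, e k) - (∑ k ∈ range i, e k)) (∑ k ∈ range m, e k)
      have a2 := norm_sub_le (∑ k ∈ range j, e k) (∑ k ∈ range i, e k)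
      have a3 := herr j hj
      have a4 := herr i hi
      have a5 := herr m hm
      rw [hE]; linarith
    have hAE := norm_add_le A E
    have hA0 := norm_nonneg A
    have hE0 := norm_nonneg E
    have hAE0 := norm_nonneg (A + E)
    have h5 : ‖A + E‖ ^ 2 ≤ 2 * ‖A‖ ^ 2 + 2 * ‖E‖ ^ 2 := by
      nlinarith [sq_nonneg (‖A‖ - ‖E‖)]
    have h6 : ‖E‖ ^ 2 ≤ (3 * b) ^ 2 := pow_le_pow_left₀ hE0 hE1 2
    linarith

/-- Sum over the cyclic interval from `i` to `j` (`i, j < n`). -/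
def arcSum (n : ℕ) (v : ℕ → ℂ) (i j : ℕ) : ℂ :=
  if i ≤ j then ∑ k ∈ Ico i j, v k else (∑ k ∈ Ico i n, v k) + ∑ k ∈ range j, v k

/-- Cyclic form: closed chain of gates. -/
theorem lln_cyclic {n L : ℕ} (hn : n < 2 ^ L) {v : ℕ → Ω → ℂ} {K : ℝ} (N : ℕ → Finset ℕ) (d : ℕ)
    (hd : ∀ i < n, (N i).card ≤ d) (h2 : ∀ k < n, MemLp (v k) 2 P)
    (hK0 : 0 ≤ K) (hK : ∀ k < n, ∫ ω, ‖v k ω‖ ^ 2 ∂P ≤ K)
    (hind : ∀ i < n, ∀ j < n, j ∉ N i → IndepFun (v i) (v j) P)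
    (g D : ℕ → ℂ) (hg : ∀ k < n, g (k + 1) = g k + D k) (hgn : g n = g 0) (c : ℂ)
    (Cor : Finset ℕ) {B : ℝ}
    (hB : 0 ≤ B) (hmean : ∀ k < n, k ∉ Cor → ∫ ω, v k ω ∂P = c * D k)
    (hcor : ∀ k < n, k ∈ Cor → ‖∫ ω, v k ω ∂P - c * D k‖ ≤ B) :
    ∃ G : Ω → ℝ, (∀ ω, 0 ≤ G ω) ∧ Integrable G P ∧
      ∫ ω, G ω ∂P ≤ 18 * L ^ 2 * (d * n * K) + 18 * (Cor.card * B) ^ 2 ∧
      ∀ ω, ∀ i ≤ n, ∀ j ≤ n, ‖arcSum n (fun k => v k ω) i j - c * (g j - g i)‖ ^ 2 ≤ G ω := by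
  obtain ⟨G, G0, G1, G2, G3⟩ := lln hn N d hd h2 hK0 hK hind g D hg c Cor hB hmean hcor
  refine ⟨G, G0, G1, G2, ?_⟩
  intro ω i hi j hj
  unfold arcSum
  split_ifs with hij
  · have h := G3 ω i hi j hj 0 (Nat.zero_le n)
    rw [Finset.sum_Ico_eq_sub _ hij]
    simpa using h
  · have h := G3 ω i hi j hj n le_rfl
    rw [Finset.sum_Ico_eq_sub _ hi]
    rw [hgn, sub_self, add_zero] at h
    convert h using 3
    ring

end prob

/-- The error of the collar of mesh `1 / M`: it tends to `0`. -/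
noncomputable def err (C : ℝ) (M : ℕ) : ℝ := C * ((Nat.log 2 (12 * M) + 1 : ℝ) ^ 2 / M)

theorem tendsto_err (C : ℝ) : Tendsto (err C) atTop (𝓝 0) := by
  have hlo : Tendsto (fun x : ℝ => Real.log x ^ 2 / x) atTop (𝓝 0) := by
    have := (Asymptotics.isLittleO_iff_tendsto' (f := fun x : ℝ => Real.log x ^ 2) (g := fun x : ℝ => x)
      (by
        filter_upwards [eventually_gt_atTop (0 : ℝ)] with x hx h0
        exact absurd h0 hx.ne')).1 (Real.isLittleO_pow_log_id_atTop (n := 2))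
    exact this
  have h12 : Tendsto (fun M : ℕ => (12 * M : ℝ)) atTop atTop :=
    (tendsto_natCast_atTop_atTop (R := ℝ)).const_mul_atTop (by norm_num)
  have h1 : Tendsto (fun M : ℕ => Real.log (12 * M : ℝ) ^ 2 / (12 * M : ℝ)) atTop (𝓝 0) :=
    hlo.comp h12
  have h2 : Tendsto (fun M : ℕ => (1 : ℝ) / M) atTop (𝓝 0) := tendsto_one_div_atTop_nhds_zero_nat
  have hup : Tendsto (fun M : ℕ => |C| * (2 * (12 / Real.log 2 ^ 2) *
      (Real.log (12 * M : ℝ) ^ 2 / (12 * M : ℝ)) + 2 * ((1 : ℝ) / M))) atTop (𝓝 0) := by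
    have := ((h1.const_mul (2 * (12 / Real.log 2 ^ 2))).add (h2.const_mul 2)).const_mul |C|
    simpa using this
  refine squeeze_zero_norm' ?_ hup
  filter_upwards [eventually_ge_atTop 1] with M hM
  have hM0 : (0 : ℝ) < M := by exact_mod_cast hM
  unfold err
  rw [norm_mul, Real.norm_eq_abs]
  apply mul_le_mul_of_nonneg_left _ (abs_nonneg C)
  rw [Real.norm_of_nonneg (by positivity)]
  have hl2 : 0 < Real.log 2 := Real.log_pos (by norm_num)
  have hlog : (Nat.log 2 (12 * M) : ℝ) ≤ Real.log (12 * M) / Real.log 2 := by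
    rw [le_div_iff₀ hl2]
    have h3 : 2 ^ Nat.log 2 (12 * M) ≤ 12 * M := Nat.pow_log_le_self 2 (by omega)
    have h4 : ((2 : ℝ) ^ Nat.log 2 (12 * M)) ≤ 12 * M := by exact_mod_cast h3
    have h5 := Real.log_le_log (by positivity) h4
    rwa [Real.log_pow] at h5
  have hlog0 : (0 : ℝ) ≤ Nat.log 2 (12 * M) := Nat.cast_nonneg _
  have h6 : ((Nat.log 2 (12 * M) : ℝ) + 1) ^ 2 ≤ 2 * (Real.log (12 * M) / Real.log 2) ^ 2 + 2 := by
    have h7 : (Nat.log 2 (12 * M) : ℝ) ^ 2 ≤ (Real.log (12 * M) / Real.log 2) ^ 2 :=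
      pow_le_pow_left₀ hlog0 hlog 2
    nlinarith [sq_nonneg ((Nat.log 2 (12 * M) : ℝ) - 1)]
  calc ((Nat.log 2 (12 * M) : ℝ) + 1) ^ 2 / M
      ≤ (2 * (Real.log (12 * M) / Real.log 2) ^ 2 + 2) / M :=
        div_le_div_of_nonneg_right h6 hM0.le
    _ = 2 * (12 / Real.log 2 ^ 2) * (Real.log (12 * M : ℝ) ^ 2 / (12 * M : ℝ)) +
          2 * ((1 : ℝ) / M) := by
        field_simp

end Vale.Agent.P148.R2.H504
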