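import Vale.Agent.P148.R2.H172.Lln

/-!
# Row N5a: dyadic maximal inequality for sums of random variables independent off a graph

`exists_dom` : a measurable function `G` which bounds the squares of all centred partial sums,
`∫ G ≤ 9 L² d n K`.
-/

namespace Vale.Agent.P148.R2.H504

open MeasureTheory ProbabilityTheory Finset
open scoped ComplexConjugate ENNReal

/-- Sum over the block `[t, t + 2 ^ l)`. -/
noncomputable def blk (z : ℕ → ℂ) (l t : ℕ) : ℂ := ∑ k ∈ Ico t (t + 2 ^ l), z k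

/-- Sum of the squares of the blocks of length `2 ^ l` which tile `[s, s + 2 ^ L)`. -/
noncomputable def qq (z : ℕ → ℂ) (L s l : ℕ) : ℝ := ∑ m ∈ range (2 ^ (L - l)), ‖blk z l (s + m * 2 ^ l)‖ ^ 2

theorem qq_nonneg (z : ℕ → ℂ) (L s l : ℕ) : 0 ≤ qq z L s l :=
  Finset.sum_nonneg fun _ _ => by positivity

theorem qq_succ (z : ℕ → ℂ) {L l : ℕ} (s : ℕ) (h : l ≤ L) :
    qq z (L + 1) s l = qq z L s l + qq z L (s + 2 ^ L) l := by
  unfold qq
  rw [show L + 1 - l = (L - l) + 1 by omega, pow_succ, mul_two, Finset.sum_range_add]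
  congr 1
  apply Finset.sum_congr rfl
  intro m _
  have : s + (2 ^ (L - l) + m) * 2 ^ l = s + 2 ^ L + m * 2 ^ l := by
    rw [add_mul, ← pow_add, Nat.sub_add_cancel h]; ring
  rw [this]

theorem norm_blk_le (z : ℕ → ℂ) (L s : ℕ) : ‖blk z L s‖ ≤ √(qq z (L + 1) s L) := by
  apply Real.le_sqrt_of_sq_le
  unfold qq
  have h0 : (0 : ℕ) ∈ range (2 ^ (L + 1 - L)) := by simp
  have := Finset.single_le_sum (f := fun m => ‖blk z L (s + m * 2 ^ L)‖ ^ 2)
    (fun _ _ => by positivity) h0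
  simpa using this

/-- Dyadic chaining. -/
theorem norm_sum_le (z : ℕ → ℂ) (L : ℕ) : ∀ s j, j < 2 ^ L →
    ‖∑ k ∈ Ico s (s + j), z k‖ ≤ ∑ l ∈ range L, √(qq z L s l) := by
  induction L with
  | zero =>
    intro s j hj
    have : j = 0 := by simpa using hj
    subst this
    simp
  | succ L ih =>
    intro s j hj
    have hmono : ∀ t, (t = s ∨ t = s + 2 ^ L) →
        ∑ l ∈ range L, √(qq z L t l) ≤ ∑ l ∈ range L, √(qq z (L + 1) s l) := by
      intro t ht
      apply Finset.sum_le_sum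
      intro l hl
      have hl' : l ≤ L := (Finset.mem_range.1 hl).le
      apply Real.sqrt_le_sqrt
      rw [qq_succ z s hl']
      rcases ht with rfl | rfl
      · have := qq_nonneg z L (t + 2 ^ L) l; linarith
      · have := qq_nonneg z L s l; linarith
    rw [Finset.sum_range_succ]
    rcases lt_or_ge j (2 ^ L) with h | h
    · have := ih s j h
      have h2 := hmono s (Or.inl rfl)
      have h3 : 0 ≤ √(qq z (L + 1) s L) := Real.sqrt_nonneg _
      linarith
    · have hj2 : j - 2 ^ L < 2 ^ L := by rw [pow_succ] at hj; omega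
      have hsplit : ∑ k ∈ Ico s (s + j), z k =
          blk z L s + ∑ k ∈ Ico (s + 2 ^ L) (s + 2 ^ L + (j - 2 ^ L)), z k := by
        unfold blk
        rw [show s + 2 ^ L + (j - 2 ^ L) = s + j by omega,
          Finset.sum_Ico_consecutive _ (by omega) (by omega)]
      rw [hsplit]
      have h1 := ih (s + 2 ^ L) (j - 2 ^ L) hj2
      have h2 := hmono (s + 2 ^ L) (Or.inr rfl)
      have h3 := norm_blk_le z L s
      have h4 := norm_add_le (blk z L s)
        (∑ k ∈ Ico (s + 2 ^ L) (s + 2 ^ L + (j - 2 ^ L)), z k)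
      linarith

/-- Square form. -/
theorem norm_sum_sq_le (z : ℕ → ℂ) (L : ℕ) {j : ℕ} (hj : j < 2 ^ L) :
    ‖∑ k ∈ range j, z k‖ ^ 2 ≤ L * ∑ l ∈ range L, qq z L 0 l := by
  have h := norm_sum_le z L 0 j hj
  rw [zero_add, ← Finset.range_eq_Ico] at h
  have h0 : 0 ≤ ‖∑ k ∈ range j, z k‖ := norm_nonneg _
  calc ‖∑ k ∈ range j, z k‖ ^ 2 ≤ (∑ l ∈ range L, √(qq z L 0 l)) ^ 2 :=
        pow_le_pow_left₀ h0 h 2
    _ ≤ (range L).card * ∑ l ∈ range L, √(qq z L 0 l) ^ 2 := sq_sum_le_card_mul_sum_sq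
    _ = L * ∑ l ∈ range L, qq z L 0 l := by
        rw [Finset.card_range]
        congr 1
        exact Finset.sum_congr rfl fun l _ => Real.sq_sqrt (qq_nonneg z L 0 l)

section prob

variable {Ω : Type*} [MeasurableSpace Ω] {P : Measure Ω} [IsProbabilityMeasure P]

/-- The dominating function. -/
noncomputable def dom (L : ℕ) (u : ℕ → Ω → ℂ) (ω : Ω) : ℝ :=
  9 * (L * ∑ l ∈ range L, qq (fun k => u k ω) L 0 l)

theorem dom_nonneg (L : ℕ) (u : ℕ → Ω → ℂ) (ω : Ω) : 0 ≤ dom L u ω := by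
  unfold dom
  have : 0 ≤ ∑ l ∈ range L, qq (fun k => u k ω) L 0 l :=
    Finset.sum_nonneg fun l _ => qq_nonneg _ _ _ _
  positivity

/-- Every partial sum, every difference of partial sums and every sum over a cyclic interval is
bounded by `dom`. -/
theorem sq_le_dom {L n : ℕ} (hn : n < 2 ^ L) (u : ℕ → Ω → ℂ) (ω : Ω) {i j m : ℕ} (hi : i ≤ n)
    (hj : j ≤ n) (hm : m ≤ n) :
    ‖(∑ k ∈ range j, u k ω) - (∑ k ∈ range i, u k ω) + ∑ k ∈ range m, u k ω‖ ^ 2 ≤
      dom L u ω := by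
  set B : ℝ := L * ∑ l ∈ range L, qq (fun k => u k ω) L 0 l with hB
  have key : ∀ r ≤ n, ‖∑ k ∈ range r, u k ω‖ ≤ √B := by
    intro r hr
    apply Real.le_sqrt_of_sq_le
    exact norm_sum_sq_le (fun k => u k ω) L (lt_of_le_of_lt hr hn)
  have h1 := key j hj
  have h2 := key i hi
  have h3 := key m hm
  have h4 : ‖(∑ k ∈ range j, u k ω) - (∑ k ∈ range i, u k ω) + ∑ k ∈ range m, u k ω‖ ≤
      3 * √B := by
    have a1 := norm_add_le ((∑ k ∈ range j, u k ω) - (∑ k ∈ range i, u k ω))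
      (∑ k ∈ range m, u k ω)
    have a2 := norm_sub_le (∑ k ∈ range j, u k ω) (∑ k ∈ range i, u k ω)
    linarith
  have hB0 : 0 ≤ B := by
    have := dom_nonneg L u ω
    unfold dom at this
    rw [hB]; linarith
  calc _ ≤ (3 * √B) ^ 2 := pow_le_pow_left₀ (norm_nonneg _) h4 2
    _ = dom L u ω := by
        rw [mul_pow, Real.sq_sqrt hB0]
        unfold dom
        rw [← hB]; norm_num

/-- Measurability of the dominating function. -/
theorem measurable_dom {L : ℕ} {u : ℕ → Ω → ℂ} (hu : ∀ k, Measurable (u k)) :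
    Measurable (dom L u) := by
  unfold dom qq blk
  fun_prop

theorem memLp_blk {u : ℕ → Ω → ℂ} (h2 : ∀ k, MemLp (u k) 2 P) (l t : ℕ) :
    MemLp (fun ω => blk (fun k => u k ω) l t) 2 P := by
  unfold blk
  exact memLp_finsetSum _ fun k _ => h2 k

theorem integrable_dom {L : ℕ} {u : ℕ → Ω → ℂ} (h2 : ∀ k, MemLp (u k) 2 P) :
    Integrable (dom L u) P := by
  unfold dom qq
  refine Integrable.const_mul (Integrable.const_mul ?_ _) _
  refine integrable_finsetSum _ fun l _ => integrable_finsetSum _ fun m _ => ?_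
  exact (memLp_blk h2 l _).integrable_norm_pow (by norm_num)

/-- Centred variables, zero from `n` on. -/
noncomputable def cen (P : Measure Ω) (n : ℕ) (v : ℕ → Ω → ℂ) (k : ℕ) (ω : Ω) : ℂ :=
  if k < n then v k ω - ∫ ω', v k ω' ∂P else 0

theorem memLp_cen {n : ℕ} {v : ℕ → Ω → ℂ} (h2 : ∀ k < n, MemLp (v k) 2 P) (k : ℕ) :
    MemLp (cen P n v k) 2 P := by
  unfold cen
  by_cases h : k < n
  · simp only [h, if_true]
    exact (h2 k h).sub (memLp_const _)
  · simp only [h, if_false]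
    exact MemLp.zero

theorem sum_cen {n : ℕ} {v : ℕ → Ω → ℂ} {j : ℕ} (hj : j ≤ n) (ω : Ω) :
    ∑ k ∈ range j, cen P n v k ω = ∑ k ∈ range j, (v k ω - ∫ ω', v k ω' ∂P) := by
  apply Finset.sum_congr rfl
  intro k hk
  rw [Finset.mem_range] at hk
  simp [cen, show k < n by omega]

/-- Second moment of a block. -/
theorem integral_blk_le {n : ℕ} {v : ℕ → Ω → ℂ} {K : ℝ} (N : ℕ → Finset ℕ) (d : ℕ)
    (hd : ∀ i < n, (N i).card ≤ d) (h2 : ∀ k < n, MemLp (v k) 2 P)
    (hK0 : 0 ≤ K) (hK : ∀ k < n, ∫ ω, ‖v k ω‖ ^ 2 ∂P ≤ K)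
    (hind : ∀ i < n, ∀ j < n, j ∉ N i → IndepFun (v i) (v j) P) (l t : ℕ) :
    ∫ ω, ‖blk (fun k => cen P n v k ω) l t‖ ^ 2 ∂P ≤
      d * ((Ico t (t + 2 ^ l)).filter (· < n)).card * K := by
  have hs : ∀ ω, blk (fun k => cen P n v k ω) l t =
      ∑ k ∈ (Ico t (t + 2 ^ l)).filter (· < n), (v k ω - ∫ ω', v k ω' ∂P) := by
    intro ω
    unfold blk cen
    rw [Finset.sum_filter]
  simp_rw [hs]
  apply H172.variance_sum _ N d
  · intro i hi; exact hd i (Finset.mem_filter.1 hi).2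
  · intro i hi; exact h2 i (Finset.mem_filter.1 hi).2
  · exact hK0
  · intro i hi; exact hK i (Finset.mem_filter.1 hi).2
  · intro i hi j hj hij
    exact hind i (Finset.mem_filter.1 hi).2 j (Finset.mem_filter.1 hj).2 hij

/-- The blocks of one level tile `[0, 2 ^ L)`. -/
theorem sum_card_blk (n L l : ℕ) (hl : l ≤ L) :
    ∑ m ∈ range (2 ^ (L - l)), ((Ico (0 + m * 2 ^ l) (0 + m * 2 ^ l + 2 ^ l)).filter (· < n)).card
      ≤ n := by
  rw [← Finset.card_biUnion]
  · calc _ ≤ (range n).card := by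
          apply Finset.card_le_card
          intro k hk
          simp only [Finset.mem_biUnion, Finset.mem_filter] at hk
          obtain ⟨m, -, -, h⟩ := hk
          exact Finset.mem_range.2 h
      _ = n := Finset.card_range n
  · intro m _ m' _ hmm
    rw [Function.onFun, Finset.disjoint_left]
    intro k hk hk'
    simp only [Finset.mem_filter, Finset.mem_Ico] at hk hk'
    apply hmm
    obtain ⟨⟨a1, a2⟩, -⟩ := hk
    obtain ⟨⟨b1, b2⟩, -⟩ := hk'
    have hp : 0 < 2 ^ l := by positivity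
    have e1 : k / 2 ^ l = m := by
      apply Nat.div_eq_of_lt_le
      · omega
      · rw [add_mul]; omega
    have e2 : k / 2 ^ l = m' := by
      apply Nat.div_eq_of_lt_le
      · omega
      · rw [add_mul]; omega
    omega

theorem integral_dom_le {n L : ℕ} {v : ℕ → Ω → ℂ} {K : ℝ} (N : ℕ → Finset ℕ) (d : ℕ)
    (hd : ∀ i < n, (N i).card ≤ d) (h2 : ∀ k < n, MemLp (v k) 2 P)
    (hK0 : 0 ≤ K) (hK : ∀ k < n, ∫ ω, ‖v k ω‖ ^ 2 ∂P ≤ K)
    (hind : ∀ i < n, ∀ j < n, j ∉ N i → IndepFun (v i) (v j) P) :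
    ∫ ω, dom L (cen P n v) ω ∂P ≤ 9 * L ^ 2 * (d * n * K) := by
  have hm := memLp_cen (P := P) h2
  have hq : ∀ l ∈ range L, ∫ ω, qq (fun k => cen P n v k ω) L 0 l ∂P ≤ d * n * K := by
    intro l hl
    have hl' : l ≤ L := (Finset.mem_range.1 hl).le
    unfold qq
    rw [integral_finsetSum _ fun m _ => (memLp_blk hm l _).integrable_norm_pow (by norm_num)]
    calc _ ≤ ∑ m ∈ range (2 ^ (L - l)), ((d : ℝ) *
            ((Ico (0 + m * 2 ^ l) (0 + m * 2 ^ l + 2 ^ l)).filter (· < n)).card * K) :=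
          Finset.sum_le_sum fun m _ => integral_blk_le N d hd h2 hK0 hK hind l _
      _ = (d : ℝ) * ((∑ m ∈ range (2 ^ (L - l)),
            ((Ico (0 + m * 2 ^ l) (0 + m * 2 ^ l + 2 ^ l)).filter (· < n)).card : ℕ) : ℝ) * K := by
          rw [Nat.cast_sum, Finset.mul_sum, Finset.sum_mul]
      _ ≤ d * n * K := by
          have h1 : ((∑ m ∈ range (2 ^ (L - l)),
            ((Ico (0 + m * 2 ^ l) (0 + m * 2 ^ l + 2 ^ l)).filter (· < n)).card : ℕ) : ℝ) ≤ n := by
            exact_mod_cast sum_card_blk n L l hl'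
          have hd0 : (0 : ℝ) ≤ d := Nat.cast_nonneg d
          exact mul_le_mul_of_nonneg_right (mul_le_mul_of_nonneg_left h1 hd0) hK0
  have hi : ∀ l ∈ range L, Integrable (fun ω => qq (fun k => cen P n v k ω) L 0 l) P := by
    intro l _
    unfold qq
    exact integrable_finsetSum _ fun m _ => (memLp_blk hm l _).integrable_norm_pow (by norm_num)
  unfold dom
  rw [integral_const_mul, integral_const_mul, integral_finsetSum _ hi]
  have h1 : ∑ l ∈ range L, ∫ ω, qq (fun k => cen P n v k ω) L 0 l ∂P ≤ L * (d * n * K) := by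
    calc _ ≤ ∑ _l ∈ range L, (d * n * K : ℝ) := Finset.sum_le_sum hq
      _ = L * (d * n * K) := by rw [Finset.sum_const, Finset.card_range, nsmul_eq_mul]
  have hL : (0 : ℝ) ≤ L := Nat.cast_nonneg L
  nlinarith [mul_le_mul_of_nonneg_left h1 hL]

/-- **Maximal inequality**: a function `G` which bounds the squares of all the centred sums over
intervals (`m = 0`) and over cyclic intervals (`m = n`), with an explicit mean. -/
theorem exists_dom {n L : ℕ} (hn : n < 2 ^ L) {v : ℕ → Ω → ℂ} {K : ℝ} (N : ℕ → Finset ℕ) (d : ℕ)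
    (hd : ∀ i < n, (N i).card ≤ d) (h2 : ∀ k < n, MemLp (v k) 2 P)
    (hK0 : 0 ≤ K) (hK : ∀ k < n, ∫ ω, ‖v k ω‖ ^ 2 ∂P ≤ K)
    (hind : ∀ i < n, ∀ j < n, j ∉ N i → IndepFun (v i) (v j) P) :
    ∃ G : Ω → ℝ, (∀ ω, 0 ≤ G ω) ∧ Integrable G P ∧ ∫ ω, G ω ∂P ≤ 9 * L ^ 2 * (d * n * K) ∧
      ∀ ω, ∀ i ≤ n, ∀ j ≤ n, ∀ m ≤ n,
        ‖(∑ k ∈ range j, (v k ω - ∫ ω', v k ω' ∂P)) - (∑ k ∈ range i, (v k ω - ∫ ω', v k ω' ∂P)) +
          ∑ k ∈ range m, (v k ω - ∫ ω', v k ω' ∂P)‖ ^ 2 ≤ G ω := by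
  refine ⟨dom L (cen P n v), dom_nonneg _ _, integrable_dom (memLp_cen h2),
    integral_dom_le N d hd h2 hK0 hK hind, ?_⟩
  intro ω i hi j hj m hm
  have := sq_le_dom hn (cen P n v) ω hi hj hm
  rwa [sum_cen hi, sum_cen hj, sum_cen hm] at this

end prob

end Vale.Agent.P148.R2.H504
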