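import Vale.Agent.P148.R2.H504.Bridge
import Vale.Agent.P148.R2.H729.Mk

/-!
# The local quenched mean: colourings and sets of black points

`mker_eq_mraw` : the mean over pairs of colourings of the points of a finite set `Y` (`mker`) is
the mean over pairs of subsets of `Y` (`H729.mraw`).
-/

namespace Vale.Agent.P148.R2.H504

open Finset N
open H953 (ex pr On Agree)
open H172 (GateLaw ex2 combLaw ExT mem_pc)
open H938 (HBx CBx HubEv CorEv pc)
open H184 (Dt)
open _root_.P148.H729 (GPs mraw)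
open scoped Classical

/-! ### means over pairs -/

section ex2

variable {V : Type*} [Fintype V]

theorem sum_ind {β : Type*} [AddCommMonoid β] (S : Set ((V → Bool) × (V → Bool)))
    (f : (V → Bool) → (V → Bool) → β) :
    (∑ p : (V → Bool) × (V → Bool), if (p.1, p.2) ∈ S then f p.1 p.2 else 0) =
      ∑ p ∈ (Set.toFinite S).toFinset, f p.1 p.2 := by
  rw [← Finset.sum_filter]
  refine Finset.sum_congr ?_ fun _ _ => rfl
  ext p
  simp only [Finset.mem_filter, Finset.mem_univ, true_and, Prod.mk.eta, Set.Finite.mem_toFinset]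

theorem ex2_ind (S : Set ((V → Bool) × (V → Bool))) (f : (V → Bool) → (V → Bool) → ℝ) :
    (ex2 fun c₁ c₂ => if (c₁, c₂) ∈ S then f c₁ c₂ else 0) =
      (∑ p ∈ (Set.toFinite S).toFinset, f p.1 p.2) /
        (2 ^ Fintype.card V * 2 ^ Fintype.card V) := by
  rw [ex2_eq_sum, sum_ind S f]

theorem ex2C_ind (S : Set ((V → Bool) × (V → Bool))) (f : (V → Bool) → (V → Bool) → ℂ) :
    (ex2C fun c₁ c₂ => if (c₁, c₂) ∈ S then f c₁ c₂ else 0) =
      (∑ p ∈ (Set.toFinite S).toFinset, f p.1 p.2) /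
        ((2 ^ Fintype.card V * 2 ^ Fintype.card V : ℝ) : ℂ) := by
  apply Complex.ext
  · rw [Complex.div_ofReal_re, Complex.re_sum, ← ex2_ind S fun c₁ c₂ => (f c₁ c₂).re]
    exact ex2_congr fun c₁ c₂ => by by_cases h : (c₁, c₂) ∈ S <;> simp [h]
  · rw [Complex.div_ofReal_im, Complex.im_sum, ← ex2_ind S fun c₁ c₂ => (f c₁ c₂).im]
    exact ex2_congr fun c₁ c₂ => by by_cases h : (c₁, c₂) ∈ S <;> simp [h]

end ex2

section sets

variable (Y : Set ℂ) [Fintype Y]

set_option linter.unusedSectionVars false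

/-- The black points. -/
def bk (c : Y → Bool) : Set ℂ := pc (Subtype.val : Y → ℂ) true c

theorem pc_false_val (c : Y → Bool) : pc (Subtype.val : Y → ℂ) false c = Y \ bk Y c := by
  have h := H938.pc_not (e := (Subtype.val : Y → ℂ)) Subtype.val_injective true c
  rw [Subtype.range_coe] at h
  exact h

theorem bk_inj : Function.Injective (bk Y) := by
  intro c c' h
  funext y
  have h1 : (y.1 ∈ pc (Subtype.val : Y → ℂ) true c) ↔ (y.1 ∈ pc (Subtype.val : Y → ℂ) true c') := by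
    show y.1 ∈ bk Y c ↔ y.1 ∈ bk Y c'
    rw [h]
  rw [mem_pc Subtype.val_injective, mem_pc Subtype.val_injective] at h1
  exact Bool.eq_iff_iff.2 h1

theorem bk_sub (c : Y → Bool) : bk Y c ⊆ Y :=
  (H938.pc_subset _ _ _).trans (by rw [Subtype.range_coe])

theorem bk_surj {B : Set ℂ} (hB : B ⊆ Y) : ∃ c : Y → Bool, bk Y c = B := by
  refine ⟨fun y => decide (y.1 ∈ B), ?_⟩
  ext z
  constructor
  · rintro ⟨y, hy, rfl⟩
    exact of_decide_eq_true hy
  · intro hz
    exact ⟨⟨z, hB hz⟩, decide_eq_true hz, rfl⟩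

/-- Pairs of black sets. -/
def bk2 (p : (Y → Bool) × (Y → Bool)) : Set ℂ × Set ℂ := (bk Y p.1, bk Y p.2)

theorem bk2_inj : Function.Injective (bk2 Y) := by
  intro p q h
  exact Prod.ext (bk_inj Y (congrArg Prod.fst h)) (bk_inj Y (congrArg Prod.snd h))

variable {M : ℕ} {t : Finset ℕ}

theorem evT_iff {c₁ c₂ : Y → Bool} : evT M t (Set.range (Subtype.val : Y → ℂ)) Subtype.val c₁ c₂ ↔
    ∀ l ∈ t, HubEv M Y (bk Y c₁) (Y \ bk Y c₁) l ∧ CorEv M Y (bk Y c₂) (Y \ bk Y c₂) l := by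
  unfold evT
  rw [pc_false_val, pc_false_val, Subtype.range_coe]
  rfl

theorem GPs_eq : GPs M t Y =
    bk2 Y '' {p | evT M t (Set.range (Subtype.val : Y → ℂ)) Subtype.val p.1 p.2} := by
  ext p
  constructor
  · rintro ⟨⟨h1, h2⟩, h3⟩
    obtain ⟨c₁, hc₁⟩ := bk_surj Y h1
    obtain ⟨c₂, hc₂⟩ := bk_surj Y h2
    refine ⟨(c₁, c₂), ?_, Prod.ext hc₁ hc₂⟩
    show evT M t _ _ c₁ c₂
    rw [evT_iff, hc₁, hc₂]
    exact h3
  · rintro ⟨⟨c₁, c₂⟩, h, rfl⟩
    exact ⟨⟨bk_sub Y c₁, bk_sub Y c₂⟩, (evT_iff Y).1 h⟩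

theorem valT_eq (k : ℕ) (Θ : Dt → ℂ) (c₁ c₂ : Y → Bool) :
    valT M t k (Subtype.val : Y → ℂ) Θ c₁ c₂ =
      H565.cellV M Y (_root_.P148.H729.cmp M t Y (bk Y c₁) (bk Y c₂)) Θ k := by
  unfold valT _root_.P148.H729.cmp
  rw [pc_false_val, Subtype.range_coe]
  rfl


/-- The pairs of colourings with all the events. -/
def evS (M : ℕ) (t : Finset ℕ) : Set ((Y → Bool) × (Y → Bool)) :=
  {p | evT M t (Set.range (Subtype.val : Y → ℂ)) Subtype.val p.1 p.2}

theorem ncard_eq : ((GPs M t Y).ncard : ℝ) =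
    ∑ _p ∈ (Set.toFinite (evS Y M t)).toFinset, (1 : ℝ) := by
  rw [GPs_eq, Set.ncard_image_of_injective _ (bk2_inj Y), Finset.sum_const,
    nsmul_eq_mul, mul_one]
  exact congrArg _ (Set.ncard_eq_toFinset_card _ _)

theorem num_eq (k : ℕ) (Θ : Dt → ℂ) :
    ∑ᶠ p ∈ GPs M t Y, H565.cellV M Y (_root_.P148.H729.cmp M t Y p.1 p.2) Θ k =
      ∑ p ∈ (Set.toFinite (evS Y M t)).toFinset,
        valT M t k (Subtype.val : Y → ℂ) Θ p.1 p.2 := by
  rw [GPs_eq, finsum_mem_image (bk2_inj Y).injOn]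
  refine (finsum_mem_eq_finite_toFinset_sum _ (Set.toFinite (evS Y M t))).trans ?_
  exact Finset.sum_congr rfl fun p _ => (valT_eq Y k Θ p.1 p.2).symm

/-- The probability of the events is a product. -/
theorem den_eq (hM : 0 < M) (ht : t ⊆ range (nc M)) :
    ((∏ l ∈ t, pr fun σ : Y → Bool => HubEv M (Set.range (Subtype.val : Y → ℂ))
        (pc Subtype.val true σ) (pc Subtype.val false σ) l) *
      ∏ l ∈ t, pr fun σ : Y → Bool => CorEv M (Set.range (Subtype.val : Y → ℂ))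
        (pc Subtype.val true σ) (pc Subtype.val false σ) l) =
    ((GPs M t Y).ncard : ℝ) / (2 ^ Fintype.card Y * 2 ^ Fintype.card Y) := by
  have h := (combLaw hM (Set.range (Subtype.val : Y → ℂ)) (Subtype.val : Y → ℂ)).pr_all_eq
    (t := t) ht
  refine h.symm.trans ?_
  rw [ncard_eq, ← ex2_ind (evS Y M t) fun _ _ => 1, ← H172.ex_pair]
  refine H953.ex_congr fun σ => ?_
  refine if_congr ?_ rfl rfl
  exact (combLaw hM (Set.range (Subtype.val : Y → ℂ)) (Subtype.val : Y → ℂ)).all_iff t σ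

/-- **The local quenched mean** over colourings and over sets. -/
theorem mker_eq_mraw (hM : 0 < M) (k : ℕ) (Θ : Dt → ℂ) :
    mker M (tk M k) k (Subtype.val : Y → ℂ) Θ = mraw M Θ k Y := by
  unfold mker mraw
  rw [num_eq]
  have h1 := den_eq Y hM (tk_sub M k)
  have h4 : ((2 ^ Fintype.card Y * 2 ^ Fintype.card Y : ℝ) : ℂ) ≠ 0 := by
    exact_mod_cast (by positivity : (2 ^ Fintype.card Y * 2 ^ Fintype.card Y : ℝ) ≠ 0)
  have h2 := ex2C_ind (evS Y M (tk M k)) (valT M (tk M k) k (Subtype.val : Y → ℂ) Θ)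
  have h3 : (ex2C fun c₁ c₂ : Y → Bool =>
      if evT M (tk M k) (Set.range (Subtype.val : Y → ℂ)) Subtype.val c₁ c₂ then
        valT M (tk M k) k (Subtype.val : Y → ℂ) Θ c₁ c₂ else 0) =
      ex2C fun c₁ c₂ : Y → Bool => if (c₁, c₂) ∈ evS Y M (tk M k) then
        valT M (tk M k) k (Subtype.val : Y → ℂ) Θ c₁ c₂ else 0 := by
    refine ex2C_congr fun c₁ c₂ => ?_
    by_cases h : evT M (tk M k) (Set.range (Subtype.val : Y → ℂ)) Subtype.val c₁ c₂
    · rw [if_pos h]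
      exact (if_pos h).symm
    · rw [if_neg h]
      exact (if_neg h).symm
  rw [h3, h2, h1, Complex.ofReal_div, div_div_div_cancel_right₀ h4, Complex.ofReal_natCast]

end sets

end Vale.Agent.P148.R2.H504
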