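import Vale.Agent.P148.R2.H504.Local
import Vale.Agent.P148.R2.H504.Mraw

/-!
# The quenched mean of the value of a cell is the local mean `H729.mraw`

`qm_eq_mraw` : for the law of the comb on the sites of a world (`SiteOK`), the quenched mean of the
value of the cell `k` is `mraw M Θ k` of the points in the window `win M 8 k`.
-/

namespace Vale.Agent.P148.R2.H504

open Finset N
open H953 (pr)
open H172 (combLaw)
open H184 (Dt)
open H291 (site SiteOK)
open _root_.P148.H729 (mraw)
open _root_.P148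
open scoped Classical

theorem win_eq (M k : ℕ) : H598.win M 8 k = Wk M k := rfl

/-- **The quenched mean of the value of a cell.** -/
theorem qm_eq_mraw {V : Type*} [Fintype V] {e : V → ℂ} (he : Function.Injective e) {M : ℕ}
    (hM0 : 0 < M) (hM : 16 ≤ M) {T : Set Pt} {R s : ℝ} (hR : 7 ≤ R) (hT : SiteOK T R s)
    (hs : 10 * s ≤ ms M) (hr : Set.range e = site T R) {c : ℝ} (hc : 0 < c)
    (hH : ∀ l < nc M, c ≤ pr ((combLaw hM0 (Set.range e) e).He l))
    (hC : ∀ l < nc M, c ≤ pr ((combLaw hM0 (Set.range e) e).Ce l)) (Θ : ℕ → Dt → ℂ) (k : ℕ) :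
    qm (combLaw hM0 (Set.range e) e) (cF M e Θ k) = mraw M (Θ k) k (pts T ∩ H598.win M 8 k) := by
  have hb : Wk M k ⊆ Metric.ball 0 R := (Wk_sub_ball hM k).trans
    (Metric.ball_subset_ball (by linarith))
  have hY : pts T ∩ Wk M k = Set.range e ∩ Wk M k := by rw [hr, hT.agree hb]
  have hfin : (pts T ∩ Wk M k).Finite := by
    rw [hY]
    exact (Set.finite_range e).subset Set.inter_subset_left
  have : Fintype ↑(pts T ∩ Wk M k) := hfin.fintype
  rw [qm_eq_mker hM0 he hc hH hC Θ k, ← mker_site he hM hR hT hs hr rfl (Θ k),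
    mker_eq_mraw _ hM0]
  rfl

/-- The points of `T` over a window are finitely many. -/
theorem finite_wA {T : Set Pt} {U : Set ℂ} (h : (pts T ∩ U).Finite) :
    (T ∩ H729.wA U).Finite := by
  refine (h.prod (Set.finite_univ (α := Bool))).subset ?_
  rintro q ⟨h1, h2⟩
  exact ⟨⟨⟨q, h1, rfl⟩, h2.1⟩, trivial⟩

end Vale.Agent.P148.R2.H504
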