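import Vale.Agent.P148.R2.H504.Lln
import Vale.Agent.P148.R2.N.Geo

/-!
# Row N5: the law of large numbers for the pieces of the ring

The `n = nc M` pieces `v k`, `k < n`, of the collar loop, independent when the cyclic distance of
the indices exceeds `r`, second moments at most `K a ^ 2`, means `i ^ s * c₀` except for at most
`q` indices near the corners. Then `E max |v_i + ... + v_(j-1) - c (g_j - g_i)| ^ 2` over all
cyclic intervals is at most `err (K * C r q) M`, which tends to `0` as `M → ∞`.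
-/

namespace Vale.Agent.P148.R2.H504

open MeasureTheory ProbabilityTheory Finset Filter Topology N
open scoped ComplexConjugate ENNReal

/-- The indices at cyclic distance at most `r` from `i`. -/
def near (n r i : ℕ) : Finset ℕ :=
  (range n).filter fun j => ∃ t ≤ r, (i + t) % n = j ∨ (j + t) % n = i

theorem card_near {n r i : ℕ} (hn : 0 < n) : (near n r i).card ≤ 2 * (r + 1) := by
  have h : near n r i ⊆ (range (r + 1)).image (fun t => (i + t) % n) ∪
      (range (r + 1)).image (fun t => (i + n * t - t) % n) := by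
    intro j hj
    unfold near at hj
    rw [mem_filter, mem_range] at hj
    obtain ⟨hj1, t, ht, h1⟩ := hj
    rw [mem_union, mem_image, mem_image]
    rcases h1 with h1 | h1
    · exact Or.inl ⟨t, by rw [mem_range]; omega, h1⟩
    · refine Or.inr ⟨t, by rw [mem_range]; omega, ?_⟩
      have h2 : t ≤ n * t := Nat.le_mul_of_pos_left t hn
      have h3 : (i + n * t - t) % n = (j + t + n * t - t) % n := by
        have e1 : (i + n * t - t) + t ≡ (j + t + n * t - t) + t [MOD n] := by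
          have e2 : (i + n * t - t) + t = i + n * t := by omega
          have e3 : (j + t + n * t - t) + t = (j + t) + n * t := by omega
          rw [e2, e3]
          apply Nat.ModEq.add_right
          rw [← h1]
          exact Nat.mod_modEq _ _
        exact Nat.ModEq.add_right_cancel' t e1
      rw [h3]
      have h4 : j + t + n * t - t = j + n * t := by omega
      rw [h4, Nat.add_mul_mod_self_left, Nat.mod_eq_of_lt hj1]
  calc (near n r i).card ≤ _ := card_le_card h
    _ ≤ _ := card_union_le _ _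
    _ ≤ (r + 1) + (r + 1) := by
        apply Nat.add_le_add
        · exact card_image_le.trans (by rw [card_range])
        · exact card_image_le.trans (by rw [card_range])
    _ = 2 * (r + 1) := by ring

theorem nc_lt_pow {M : ℕ} (hM : 0 < M) : nc M < 2 ^ (Nat.log 2 (12 * M) + 1) := by
  have h1 : nc M ≤ 12 * M := by unfold nc; omega
  exact h1.trans_lt (Nat.lt_pow_succ_log_self (by norm_num) _)

theorem disp_norm {M k : ℕ} (hk : k % (2 * M + 1) ≠ 2 * M) :
    Complex.I * ms M * Complex.I ^ (k / (2 * M + 1)) = disp M k := by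
  unfold disp
  rw [if_neg hk]
  have : (⟨0, ms M⟩ : ℂ) = Complex.I * ms M := by
    apply Complex.ext <;> simp
  rw [this]; ring

section prob

variable {Ω : Type*} [MeasurableSpace Ω] {P : Measure Ω} [IsProbabilityMeasure P]

/-- **Row N5.** -/
theorem ring_lln {M : ℕ} (hM : 0 < M) {v : ℕ → Ω → ℂ} {K : ℝ} (hK0 : 0 ≤ K) (r q : ℕ)
    (h2 : ∀ k < nc M, MemLp (v k) 2 P)
    (hK : ∀ k < nc M, ∫ ω, ‖v k ω‖ ^ 2 ∂P ≤ K * ms M ^ 2)
    (hind : ∀ i < nc M, ∀ j < nc M, j ∉ near (nc M) r i → IndepFun (v i) (v j) P)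
    (c₀ : ℂ) (hc₀ : ‖c₀‖ ^ 2 ≤ K * ms M ^ 2) (Cor : Finset ℕ) (hq : Cor.card ≤ q)
    (hcor : ∀ k < nc M, k % (2 * M + 1) = 2 * M → k ∈ Cor)
    (hmean : ∀ k < nc M, k ∉ Cor → ∫ ω, v k ω ∂P = Complex.I ^ (k / (2 * M + 1)) * c₀) :
    ∃ G : Ω → ℝ, (∀ ω, 0 ≤ G ω) ∧ Integrable G P ∧
      ∫ ω, G ω ∂P ≤ err (K * (432 * (r + 1) + 72 * q ^ 2)) M ∧
      ∀ ω, ∀ i ≤ nc M, ∀ j ≤ nc M,
        ‖arcSum (nc M) (fun k => v k ω) i j -
          c₀ / (Complex.I * ms M) * (gateC M j - gateC M i)‖ ^ 2 ≤ G ω := by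
  have hms := ms_pos hM
  have hms' : (ms M : ℂ) ≠ 0 := by exact_mod_cast hms.ne'
  have hn : 0 < nc M := by unfold nc; omega
  set c := c₀ / (Complex.I * ms M) with hc
  have hcm : ∀ k, k % (2 * M + 1) ≠ 2 * M →
      Complex.I ^ (k / (2 * M + 1)) * c₀ = c * disp M k := by
    intro k hk
    rw [← disp_norm hk, hc]
    field_simp
  have hsq : ‖c₀‖ ≤ Real.sqrt K * ms M := by
    apply abs_le_of_sq_le_sq' _ (by positivity) |>.2
    rw [mul_pow, Real.sq_sqrt hK0]
    exact hc₀
  have hcn : ‖c‖ ≤ Real.sqrt K := by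
    rw [hc, norm_div, norm_mul, Complex.norm_I, one_mul, Complex.norm_real, Real.norm_eq_abs,
      abs_of_pos hms, div_le_iff₀ hms]
    exact hsq
  obtain ⟨G, G0, G1, G2, G3⟩ := lln_cyclic (P := P) (nc_lt_pow hM) (v := v)
    (K := K * ms M ^ 2) (near (nc M) r) (2 * (r + 1)) (fun i _ => card_near hn) h2
    (by positivity) hK hind (gateC M) (disp M) (fun k _ => gateC_succ hM k)
    (by have := gateC_add_nc M 0; rwa [zero_add] at this) c Cor (B := 2 * (Real.sqrt K * ms M))
    (by positivity)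
    (fun k hk hkc => by
      rw [hmean k hk hkc]
      exact hcm k fun h => hkc (hcor k hk h))
    (fun k hk _ => by
      have e1 : ‖∫ ω, v k ω ∂P‖ ≤ Real.sqrt K * ms M := by
        apply abs_le_of_sq_le_sq' _ (by positivity) |>.2
        rw [mul_pow, Real.sq_sqrt hK0]
        refine le_trans ?_ (hK k hk)
        have hi : Integrable (v k) P := (h2 k hk).integrable (by norm_num)
        have h3 := norm_integral_le_integral_norm (μ := P) (v k)
        have h4 : (∫ ω, ‖v k ω‖ ∂P) ^ 2 ≤ ∫ ω, ‖v k ω‖ ^ 2 ∂P := by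
          have h5 := ProbabilityTheory.variance_nonneg (fun ω => ‖v k ω‖) P
          have h6 := ProbabilityTheory.variance_eq_sub (μ := P) (X := fun ω => ‖v k ω‖)
            (h2 k hk).norm
          rw [h6] at h5
          have h7 : (∫ ω, ((fun ω => ‖v k ω‖) ^ 2) ω ∂P) = ∫ ω, ‖v k ω‖ ^ 2 ∂P := rfl
          rw [h7] at h5
          linarith
        exact (pow_le_pow_left₀ (norm_nonneg _) h3 2).trans h4
      have e2 : ‖c * disp M k‖ ≤ Real.sqrt K * ms M := by
        rw [norm_mul]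
        exact mul_le_mul hcn (norm_disp_le hM k) (norm_nonneg _) (Real.sqrt_nonneg _)
      calc ‖∫ ω, v k ω ∂P - c * disp M k‖ ≤ ‖∫ ω, v k ω ∂P‖ + ‖c * disp M k‖ := norm_sub_le _ _
        _ ≤ 2 * (Real.sqrt K * ms M) := by linarith)
  refine ⟨G, G0, G1, G2.trans ?_, G3⟩
  set L : ℝ := (Nat.log 2 (12 * M) + 1 : ℝ) with hL
  have hLc : ((Nat.log 2 (12 * M) + 1 : ℕ) : ℝ) = L := by rw [hL]; push_cast; ring
  rw [hLc]
  have hL1 : 1 ≤ L := by
    rw [hL]; have : (0 : ℝ) ≤ Nat.log 2 (12 * M) := Nat.cast_nonneg _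
    linarith
  have hL2 : 1 ≤ L ^ 2 := by nlinarith
  have hncM : (nc M : ℝ) * ms M ^ 2 ≤ 12 * ms M := by
    have h1 : (nc M : ℝ) ≤ 12 * M := by
      have : nc M ≤ 12 * M := by unfold nc; omega
      exact_mod_cast this
    have h3 := M_mul_ms hM
    calc (nc M : ℝ) * ms M ^ 2 ≤ 12 * M * ms M ^ 2 :=
          mul_le_mul_of_nonneg_right h1 (by positivity)
      _ = 12 * ((M : ℝ) * ms M) * ms M := by ring
      _ = 12 * ms M := by rw [h3]; ring
  have hms1 : ms M ≤ 1 := ms_le_one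
  have hq' : (Cor.card : ℝ) ^ 2 ≤ (q : ℝ) ^ 2 := by
    apply pow_le_pow_left₀ (Nat.cast_nonneg _)
    exact_mod_cast hq
  have herr : err (K * (432 * (r + 1) + 72 * q ^ 2)) M =
      K * (432 * (r + 1) + 72 * q ^ 2) * (L ^ 2 * ms M) := by
    unfold err ms; rw [← hL]; ring
  rw [herr]
  have t1 : 18 * L ^ 2 * (((2 * (r + 1) : ℕ) : ℝ) * (nc M : ℝ) * (K * ms M ^ 2)) ≤
      K * (432 * (r + 1)) * (L ^ 2 * ms M) := by
    have : 18 * L ^ 2 * (((2 * (r + 1) : ℕ) : ℝ) * (nc M : ℝ) * (K * ms M ^ 2)) =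
        (36 * (r + 1) * K * L ^ 2) * ((nc M : ℝ) * ms M ^ 2) := by push_cast; ring
    rw [this]
    calc (36 * (r + 1) * K * L ^ 2) * ((nc M : ℝ) * ms M ^ 2)
        ≤ (36 * (r + 1) * K * L ^ 2) * (12 * ms M) :=
          mul_le_mul_of_nonneg_left hncM (by positivity)
      _ = _ := by ring
  have t2 : 18 * ((Cor.card : ℝ) * (2 * (Real.sqrt K * ms M))) ^ 2 ≤
      K * (72 * q ^ 2) * (L ^ 2 * ms M) := by
    have e : 18 * ((Cor.card : ℝ) * (2 * (Real.sqrt K * ms M))) ^ 2 =
        72 * (Cor.card : ℝ) ^ 2 * (Real.sqrt K ^ 2) * ms M ^ 2 := by ring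
    rw [e, Real.sq_sqrt hK0]
    calc 72 * (Cor.card : ℝ) ^ 2 * K * ms M ^ 2 ≤ 72 * (q : ℝ) ^ 2 * K * ms M ^ 2 := by
          gcongr
      _ ≤ 72 * (q : ℝ) ^ 2 * K * (L ^ 2 * ms M) := by
          apply mul_le_mul_of_nonneg_left _ (by positivity)
          nlinarith
      _ = _ := by ring
  calc _ ≤ K * (432 * (r + 1)) * (L ^ 2 * ms M) + K * (72 * q ^ 2) * (L ^ 2 * ms M) :=
        add_le_add t1 t2
    _ = _ := by ring

end prob

end Vale.Agent.P148.R2.H504
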